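import Mathlib

/-! A small toolkit for averages over circles centred at the origin. -/

open Set Filter Metric Function Complex Real
open scoped Topology ComplexConjugate

namespace Crest.Agent.R132

section general

variable {E : Type*} [NormedAddCommGroup E] [NormedSpace ℝ E]

/-- Average over the circle of radius `ρ` about the origin. -/
noncomputable def av (ρ : ℝ) (f : ℂ → E) : E := circleAverage f 0 ρ

variable {ρ : ℝ} {f g : ℂ → E}

theorem circ_mem (hρ : 0 < ρ) (θ : ℝ) : circleMap 0 ρ θ ∈ sphere (0 : ℂ) ρ :=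
  circleMap_mem_sphere 0 hρ.le θ

theorem av_congr (hρ : 0 < ρ) (h : ∀ u : ℂ, ‖u‖ = ρ → f u = g u) : av ρ f = av ρ g :=
  circleAverage_congr_sphere fun u hu => h u (by simpa [abs_of_pos hρ] using hu)

omit [NormedSpace ℝ E] in
theorem circInt (hρ : 0 < ρ) (hf : ContinuousOn f (sphere 0 ρ)) : CircleIntegrable f 0 ρ :=
  hf.circleIntegrable hρ.le

theorem av_add (hρ : 0 < ρ) (hf : ContinuousOn f (sphere 0 ρ)) (hg : ContinuousOn g (sphere 0 ρ)) :
    av ρ (fun u => f u + g u) = av ρ f + av ρ g :=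
  circleAverage_fun_add (circInt hρ hf) (circInt hρ hg)

theorem av_sub (hρ : 0 < ρ) (hf : ContinuousOn f (sphere 0 ρ)) (hg : ContinuousOn g (sphere 0 ρ)) :
    av ρ (fun u => f u - g u) = av ρ f - av ρ g :=
  circleAverage_fun_sub (circInt hρ hf) (circInt hρ hg)

theorem av_sum {ι : Type*} (s : Finset ι) {F : ι → ℂ → E} (hρ : 0 < ρ)
    (hF : ∀ i ∈ s, ContinuousOn (F i) (sphere 0 ρ)) :
    av ρ (fun u => ∑ i ∈ s, F i u) = ∑ i ∈ s, av ρ (F i) :=
  circleAverage_fun_sum fun i hi => circInt hρ (hF i hi)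

theorem av_const [CompleteSpace E] (a : E) : av ρ (fun _ => a) = a := circleAverage_const a 0 ρ

theorem av_clm {F : Type*} [NormedAddCommGroup F] [NormedSpace ℝ F] [CompleteSpace E]
    [CompleteSpace F] (L : E →L[ℝ] F) (hρ : 0 < ρ) (hf : ContinuousOn f (sphere 0 ρ)) :
    av ρ (fun u => L (f u)) = L (av ρ f) :=
  L.circleAverage_comp_comm (circInt hρ hf)

theorem av_mono {f g : ℂ → ℝ} (hρ : 0 < ρ) (hf : ContinuousOn f (sphere 0 ρ))
    (hg : ContinuousOn g (sphere 0 ρ)) (h : ∀ u : ℂ, ‖u‖ = ρ → f u ≤ g u) : av ρ f ≤ av ρ g :=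
  circleAverage_mono (circInt hρ hf) (circInt hρ hg)
    fun u hu => h u (by simpa [abs_of_pos hρ] using hu)

theorem av_nonneg {f : ℂ → ℝ} (hρ : 0 < ρ) (h : ∀ u : ℂ, ‖u‖ = ρ → 0 ≤ f u) : 0 ≤ av ρ f :=
  circleAverage_nonneg_of_nonneg fun u hu => h u (by simpa [abs_of_pos hρ] using hu)

theorem av_const_mul_real (a : ℝ) (f : ℂ → ℝ) : av ρ (fun u => a * f u) = a * av ρ f := by
  simpa [av] using circleAverage_fun_smul (a := a) (f := f) (c := 0) (R := ρ)

theorem av_cont {X : Type*} [TopologicalSpace X] {s : Set X} {G : X → ℂ → E} (hρ : 0 < ρ)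
    (hG : ContinuousOn (uncurry G) (s ×ˢ sphere 0 ρ)) : ContinuousOn (fun x => av ρ (G x)) s := by
  rw [continuousOn_iff_continuous_domRestrict]
  apply (intervalIntegral.continuous_parametric_intervalIntegral_of_continuous' _ _ _).const_smul
  refine hG.comp_continuous (f := fun x : s × ℝ => ((x.1 : X), circleMap 0 ρ x.2))
    (by fun_prop) fun x => ⟨x.1.2, circ_mem hρ _⟩

theorem av_swap {ρ' : ℝ} {G : ℂ → ℂ → E} (hρ : 0 < ρ) (hρ' : 0 < ρ')
    (hG : ContinuousOn (uncurry G) (sphere 0 ρ ×ˢ sphere 0 ρ')) :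
    av ρ (fun u => av ρ' (fun v => G u v)) = av ρ' (fun v => av ρ (fun u => G u v)) := by
  simp only [av, circleAverage, intervalIntegral.integral_smul]
  congr 2
  apply MeasureTheory.intervalIntegral_intervalIntegral_swap
    (F := fun x y => G (circleMap 0 ρ x) (circleMap 0 ρ' y))
  have hc : Continuous (uncurry fun x y => G (circleMap 0 ρ x) (circleMap 0 ρ' y)) :=
    hG.comp_continuous (f := fun x : ℝ × ℝ => (circleMap 0 ρ x.1, circleMap 0 ρ' x.2))
      (by fun_prop) fun x => ⟨circ_mem hρ _, circ_mem hρ' _⟩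
  exact (hc.continuousOn.integrableOn_compact (isCompact_uIcc.prod isCompact_uIcc)).mono_set
    (prod_mono uIoc_subset_uIcc uIoc_subset_uIcc)

end general

variable {ρ R : ℝ} {f g : ℂ → ℂ}

theorem av_const_mul (a : ℂ) (f : ℂ → ℂ) : av ρ (fun u => a * f u) = a * av ρ f := by
  simpa [av] using circleAverage_fun_smul (a := a) (f := f) (c := 0) (R := ρ)

theorem av_mul_const (a : ℂ) (f : ℂ → ℂ) : av ρ (fun u => f u * a) = av ρ f * a := by
  simpa [mul_comm] using av_const_mul (ρ := ρ) a f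

theorem av_conj (hρ : 0 < ρ) (hf : ContinuousOn f (sphere 0 ρ)) :
    av ρ (fun u => conj (f u)) = conj (av ρ f) :=
  av_clm (conjCLE : ℂ →L[ℝ] ℂ) hρ hf

theorem av_re (hρ : 0 < ρ) (hf : ContinuousOn f (sphere 0 ρ)) :
    av ρ (fun u => (f u).re) = (av ρ f).re :=
  av_clm reCLM hρ hf

theorem av_ofReal {f : ℂ → ℝ} (hρ : 0 < ρ) (hf : ContinuousOn f (sphere 0 ρ)) :
    av ρ (fun u => (f u : ℂ)) = (av ρ f : ℝ) :=
  av_clm ofRealCLM hρ hf

theorem av_hol (hρ : 0 < ρ) (hR : ρ < R) (hf : DifferentiableOn ℂ f (ball 0 R)) :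
    av ρ f = f 0 := by
  apply DiffContOnCl.circleAverage
  rw [abs_of_pos hρ]
  exact hf.diffContOnCl_ball (closedBall_subset_ball hR)

theorem av_cauchy (hρ : 0 < ρ) (hR : ρ < R) (hf : DifferentiableOn ℂ f (ball 0 R)) {w : ℂ}
    (hw : ‖w‖ < ρ) : av ρ (fun z => z / (z - w) * f z) = f w := by
  have := DiffContOnCl.circleAverage_smul_div (f := f) (c := 0) (R := ρ) (w := w)
    (by rw [abs_of_pos hρ]; exact hf.diffContOnCl_ball (closedBall_subset_ball hR))
    (by simpa [abs_of_pos hρ] using hw)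
  simpa [av] using this

theorem av_annulus {r : ℝ} (hr : 0 < r) (hle : r ≤ ρ)
    (hf : ∀ z : ℂ, r ≤ ‖z‖ → ‖z‖ ≤ ρ → DifferentiableAt ℂ f z) : av ρ f = av r f := by
  rw [av, av, circleAverage_eq_circleIntegral (hr.trans_le hle).ne',
    circleAverage_eq_circleIntegral hr.ne']
  congr 1
  refine circleIntegral_sub_center_inv_smul_eq_of_differentiable_on_annulus_off_countable hr hle
    countable_empty (fun z hz => (hf z ?_ ?_).continuousAt.continuousWithinAt)
    (fun z hz => hf z ?_ ?_)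
  · simpa using hz.2
  · simpa using hz.1
  · have := hz.1.2
    simp only [mem_closedBall_zero_iff, not_le] at this
    exact this.le
  · exact (mem_ball_zero_iff.1 hz.1.1).le

/-- The average of `u P'(u)` vanishes. -/
theorem av_deriv (hρ : 0 < ρ) {P : ℂ → ℂ} (hP : ∀ u : ℂ, ‖u‖ = ρ → HasDerivAt P (f u / u) u)
    (hf : ContinuousOn f (sphere 0 ρ)) : av ρ f = 0 := by
  have hn : ∀ θ, ‖circleMap 0 ρ θ‖ = ρ := fun θ => by simpa using circ_mem hρ θ
  have h1 : ∀ θ ∈ uIcc (0 : ℝ) (2 * π),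
      HasDerivAt (fun θ => P (circleMap 0 ρ θ)) (I * f (circleMap 0 ρ θ)) θ := by
    intro θ _
    have h2 := (hP _ (hn θ)).comp_of_eq θ (hasDerivAt_circleMap 0 ρ θ) rfl
    have h0 : circleMap 0 ρ θ ≠ 0 := circleMap_ne_center hρ.ne'
    have e : I * f (circleMap 0 ρ θ) =
        f (circleMap 0 ρ θ) / circleMap 0 ρ θ * (circleMap 0 ρ θ * I) := by field_simp
    rw [e]
    exact h2
  have h3 := intervalIntegral.integral_eq_sub_of_hasDerivAt h1
    ((circInt hρ hf).const_mul I)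
  have h4 : circleMap 0 ρ (2 * π) = circleMap 0 ρ 0 := by
    simpa using periodic_circleMap 0 ρ 0
  rw [h4, sub_self, intervalIntegral.integral_const_mul] at h3
  rw [av, circleAverage, (mul_eq_zero.1 h3).resolve_left I_ne_zero, smul_zero]

/-- Mean square over the unit circle. -/
noncomputable def msq (f : ℂ → ℂ) : ℝ := av 1 fun u => ‖f u‖ ^ 2

theorem msq_nonneg (f : ℂ → ℂ) : 0 ≤ msq f := av_nonneg one_pos fun _ _ => sq_nonneg _

theorem msq_congr (h : ∀ u : ℂ, ‖u‖ = 1 → ‖f u‖ = ‖g u‖) : msq f = msq g :=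
  av_congr one_pos fun u hu => by rw [h u hu]

theorem msq_add (hf : ContinuousOn f (sphere 0 1)) (hg : ContinuousOn g (sphere 0 1)) :
    msq (fun u => f u + conj (g u)) = msq f + msq g + 2 * (av 1 fun u => f u * g u).re := by
  rw [msq, msq, msq, ← av_re one_pos, ← av_const_mul_real, ← av_add one_pos, ← av_add one_pos]
  · refine av_congr one_pos fun u _ => ?_
    simp only [← normSq_eq_norm_sq, normSq_add, normSq_conj, conj_conj]
  all_goals fun_prop

theorem msq_eq (hf : ContinuousOn f (sphere 0 1)) :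
    av 1 (fun u => f u * conj (f u)) = (msq f : ℝ) := by
  rw [msq, ← av_ofReal one_pos]
  · refine av_congr one_pos fun u _ => ?_
    rw [mul_conj']; push_cast; rfl
  · fun_prop

theorem msq_const_mul (a : ℂ) (f : ℂ → ℂ) : msq (fun u => a * f u) = ‖a‖ ^ 2 * msq f := by
  rw [msq, msq, ← av_const_mul_real]
  simp only [norm_mul, mul_pow]

/-- Joint continuity of divided differences. -/
theorem continuousOn_dslope_param {F : ℂ → ℂ → ℂ}
    (hc : ContinuousOn (uncurry F) (ball 0 R ×ˢ ball 0 R))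
    (hd : ∀ u ∈ ball (0 : ℂ) R, DifferentiableOn ℂ (F u) (ball 0 R)) :
    ContinuousOn (uncurry fun u v => dslope (F u) u v) (ball 0 R ×ˢ ball 0 R) := by
  rintro ⟨a, b⟩ ⟨ha, hb⟩
  simp only [mem_ball_zero_iff] at ha hb
  obtain ⟨ρ, hρ1, hρ2⟩ := exists_between (max_lt ha hb)
  have haρ : ‖a‖ < ρ := (le_max_left _ _).trans_lt hρ1
  have hbρ : ‖b‖ < ρ := (le_max_right _ _).trans_lt hρ1
  have hρ : 0 < ρ := (norm_nonneg _).trans_lt haρ
  have hsub : ball (0 : ℂ) ρ ⊆ ball 0 R := ball_subset_ball hρ2.le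
  have hsub' : sphere (0 : ℂ) ρ ⊆ ball 0 R :=
    sphere_subset_closedBall.trans (closedBall_subset_ball hρ2)
  have hne : ∀ u ∈ ball (0 : ℂ) ρ, ∀ w ∈ sphere (0 : ℂ) ρ, w - u ≠ 0 := by
    intro u hu w hw h
    rw [sub_eq_zero.1 h] at hw
    simp only [mem_ball_zero_iff, mem_sphere_zero_iff_norm] at hu hw
    linarith
  have h1 : ContinuousOn (fun p : ℂ × ℂ => av ρ fun w =>
      w / (w - p.2) * ((w - p.1)⁻¹ * (F p.1 w - F p.1 p.1))) (ball 0 ρ ×ˢ ball 0 ρ) := by
    refine av_cont hρ ?_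
    refine ContinuousOn.mul (ContinuousOn.div (by fun_prop) (by fun_prop) ?_)
      (ContinuousOn.mul (ContinuousOn.inv₀ (by fun_prop) ?_) (ContinuousOn.sub ?_ ?_))
    · exact fun p hp => hne _ hp.1.2 _ hp.2
    · exact fun p hp => hne _ hp.1.1 _ hp.2
    · exact hc.comp (f := fun p : (ℂ × ℂ) × ℂ => (p.1.1, p.2)) (by fun_prop)
        fun p hp => ⟨hsub hp.1.1, hsub' hp.2⟩
    · exact hc.comp (f := fun p : (ℂ × ℂ) × ℂ => (p.1.1, p.1.1)) (by fun_prop)
        fun p hp => ⟨hsub hp.1.1, hsub hp.1.1⟩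
  have hnh : ball (0 : ℂ) ρ ×ˢ ball (0 : ℂ) ρ ∈ 𝓝 (a, b) :=
    (isOpen_ball.prod isOpen_ball).mem_nhds ⟨mem_ball_zero_iff.2 haρ, mem_ball_zero_iff.2 hbρ⟩
  refine ContinuousAt.continuousWithinAt ((h1.congr ?_).continuousAt hnh)
  rintro ⟨u, v⟩ ⟨hu, hv⟩
  have h2 : DifferentiableOn ℂ (dslope (F u) u) (ball 0 R) :=
    (differentiableOn_dslope (isOpen_ball.mem_nhds (hsub hu))).2 (hd u (hsub hu))
  simp only [uncurry]
  rw [← av_cauchy hρ hρ2 h2 (mem_ball_zero_iff.1 hv)]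
  refine av_congr hρ fun w hw => ?_
  rw [dslope_of_ne _ (sub_ne_zero.1 (hne u hu w (mem_sphere_zero_iff_norm.2 hw))), slope]
  simp

end Crest.Agent.R132
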