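import Mathlib
import Crest.Agent.Lib.RMT.Basic

/-!
Exterior conformal maps of convex curves.  For a compact convex set `W` inside an open set `Ω`
we produce `z u = c / u + g u`, injective on a punctured disc of radius `R > 1`, whose unit circle
is mapped onto a convex curve around `W` inside `Ω`.
-/

open Set Filter Metric Function Complex
open scoped Topology ComplexConjugate

namespace Crest.Agent.R132

/-- The exterior map in the variable `u = 1 / t`. -/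
noncomputable def zf (c : ℂ) (g : ℂ → ℂ) (u : ℂ) : ℂ := c / u + g u

/-- The outer normal `-u z'(u)`. -/
noncomputable def nf (c : ℂ) (g : ℂ → ℂ) (u : ℂ) : ℂ := c / u - u * deriv g u

/-- The properties of the exterior map that are used. -/
structure IsExt (W Ω : Set ℂ) (R : ℝ) (c : ℂ) (g : ℂ → ℂ) : Prop where
  hR : 1 < R
  hc : c ≠ 0
  hg : DifferentiableOn ℂ g (ball 0 R)
  den : ∀ u ∈ ball (0 : ℂ) R, ∀ v ∈ ball (0 : ℂ) R, c - u * v * dslope g u v ≠ 0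
  conv : ∀ u v : ℂ, ‖u‖ = 1 → ‖v‖ = 1 → 0 ≤ ((zf c g u - zf c g v) * conj (nf c g u)).re
  star : ∀ u : ℂ, ‖u‖ = 1 → ∀ w ∈ W, 0 ≤ ((zf c g u - w) * conj (nf c g u)).re
  out : ∀ u ∈ ball (0 : ℂ) R, u ≠ 0 → zf c g u ∉ W
  inn : ∀ u : ℂ, 1 ≤ ‖u‖ → ‖u‖ < R → zf c g u ∈ Ω

/-- Maximum principle with compact superlevel sets. -/
theorem maxp {D : Set ℂ} (hD : IsOpen D) {φ : ℂ → ℂ} (hφ : DifferentiableOn ℂ φ D)
    (hK : ∀ s : ℝ, 1 < s → IsCompact {u | u ∈ D ∧ s ≤ ‖φ u‖}) : ∀ u ∈ D, ‖φ u‖ ≤ 1 := by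
  intro u hu
  by_contra hlt
  push Not at hlt
  have hc := hK _ hlt
  obtain ⟨w, hw, hmax⟩ := hc.exists_isMaxOn (f := fun z => ‖φ z‖) ⟨u, hu, le_rfl⟩
    (hφ.continuousOn.norm.mono fun z hz => hz.1)
  have hmaxD : ∀ z ∈ D, ‖φ z‖ ≤ ‖φ w‖ := by
    intro z hz
    by_cases h : ‖φ u‖ ≤ ‖φ z‖
    · exact hmax ⟨hz, h⟩
    · exact (not_le.1 h).le.trans hw.2
  have hc2 := hK ‖φ w‖ (hlt.trans_le hw.2)
  have ho : IsOpen {z | z ∈ D ∧ ‖φ w‖ ≤ ‖φ z‖} := by
    rw [isOpen_iff_mem_nhds]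
    rintro z ⟨hz, hzw⟩
    have h1 : IsLocalMax (norm ∘ φ) z := by
      filter_upwards [hD.mem_nhds hz] with y hy using (hmaxD y hy).trans hzw
    have h2 := Complex.norm_eventually_eq_of_isLocalMax
      (by filter_upwards [hD.mem_nhds hz] with y hy using hφ.differentiableAt (hD.mem_nhds hy)) h1
    filter_upwards [hD.mem_nhds hz, h2] with y hy hy2
    exact ⟨hy, by rw [hy2]; exact hzw⟩
  have hcl : IsClopen {z | z ∈ D ∧ ‖φ w‖ ≤ ‖φ z‖} := ⟨hc2.isClosed, ho⟩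
  have := hcl.eq_univ ⟨w, hw.1, le_rfl⟩
  rw [this] at hc2
  exact noncompact_univ ℂ hc2

/-- The inverted complement. -/
def invSet (z₀ : ℂ) (W : Set ℂ) : Set ℂ := {y | y = 0 ∨ z₀ + y⁻¹ ∉ W}

theorem isOpen_invSet (z₀ : ℂ) {W : Set ℂ} (hW : IsCompact W) : IsOpen (invSet z₀ W) := by
  rw [isOpen_iff_mem_nhds]
  intro y hy
  by_cases hy0 : y = 0
  · subst hy0
    obtain ⟨B, hB0, hB⟩ := hW.isBounded.subset_ball_lt 0 z₀
    filter_upwards [ball_mem_nhds (0 : ℂ) (inv_pos.2 hB0)] with y hy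
    by_cases h : y = 0
    · exact Or.inl h
    · refine Or.inr fun hW' => ?_
      have h1 := hB hW'
      simp only [mem_ball, dist_self_add_left, norm_inv, dist_zero_right] at h1 hy
      have h2 : 0 < ‖y‖ := norm_pos_iff.2 h
      have := (inv_lt_inv₀ (inv_pos.2 hB0) h2).2 hy
      rw [inv_inv] at this
      linarith
  · have h1 : z₀ + y⁻¹ ∉ W := hy.resolve_left hy0
    have h2 : ContinuousAt (fun y : ℂ => z₀ + y⁻¹) y := continuousAt_const.add (continuousAt_inv₀ hy0)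
    filter_upwards [h2.preimage_mem_nhds (hW.isClosed.isOpen_compl.mem_nhds h1)] with x hx
    exact Or.inr hx

theorem isClosed_invSet (z₀ : ℂ) {O : Set ℂ} (hO : IsOpen O) : IsClosed (invSet z₀ O) := by
  rw [← isOpen_compl_iff, isOpen_iff_mem_nhds]
  intro y hy
  simp only [invSet, mem_compl_iff, mem_ofPred_eq, not_or, not_not] at hy
  have h2 : ContinuousAt (fun y : ℂ => z₀ + y⁻¹) y := continuousAt_const.add (continuousAt_inv₀ hy.1)
  filter_upwards [h2.preimage_mem_nhds (hO.mem_nhds hy.2), isOpen_ne.mem_nhds hy.1] with x hx hx0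
  simp only [invSet, mem_compl_iff, mem_ofPred_eq, not_or, not_not]
  exact ⟨hx0, hx⟩

theorem isBounded_invSet {z₀ : ℂ} {W : Set ℂ} {δ : ℝ} (hδ : 0 < δ) (h : ball z₀ δ ⊆ W) :
    Bornology.IsBounded (invSet z₀ W) := by
  refine (isBounded_closedBall (x := (0 : ℂ)) (r := δ⁻¹)).subset fun y hy => ?_
  rw [mem_closedBall_zero_iff]
  by_cases hy0 : y = 0
  · rw [hy0, norm_zero]; positivity
  · have h1 : z₀ + y⁻¹ ∉ W := hy.resolve_left hy0
    by_contra hlt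
    push Not at hlt
    apply h1 (h _)
    simp only [mem_ball, dist_self_add_left, norm_inv]
    exact inv_lt_of_inv_lt₀ hδ hlt

theorem starConvex_invSet {z₀ : ℂ} {W : Set ℂ} (hW : Convex ℝ W) (hz : z₀ ∈ W) :
    StarConvex ℝ 0 (invSet z₀ W) := by
  intro y hy a b ha hb hab
  simp only [smul_zero, zero_add]
  by_cases h0 : b • y = 0
  · exact Or.inl h0
  · have hb0 : b ≠ 0 := fun h => h0 (by simp [h])
    have hy0 : y ≠ 0 := fun h => h0 (by simp [h])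
    refine Or.inr fun h => (hy.resolve_left hy0) ?_
    have := hW hz h ha hb hab
    have hb' : (b : ℂ) ≠ 0 := by exact_mod_cast hb0
    have hab' : (a : ℂ) + b = 1 := by exact_mod_cast hab
    convert this using 1
    simp only [real_smul]
    field_simp
    linear_combination (-z₀ * y) * hab'

/-- The data given by the Riemann mapping theorem. -/
structure IsRM (W : Set ℂ) (z₀ : ℂ) (f F : ℂ → ℂ) : Prop where
  cpt : IsCompact W
  cvx : Convex ℝ W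
  bdd : Bornology.IsBounded (invSet z₀ W)
  hz : z₀ ∈ W
  df : DifferentiableOn ℂ f (invSet z₀ W)
  dF : DifferentiableOn ℂ F (ball 0 1)
  mf : MapsTo f (invSet z₀ W) (ball 0 1)
  mF : MapsTo F (ball 0 1) (invSet z₀ W)
  Ff : ∀ z ∈ invSet z₀ W, F (f z) = z
  fF : ∀ w ∈ ball (0 : ℂ) 1, f (F w) = w
  f0 : f 0 = 0

theorem exists_isRM {W : Set ℂ} (hW : IsCompact W) (hWc : Convex ℝ W) {z₀ : ℂ} {δ : ℝ}
    (hδ : 0 < δ) (h : ball z₀ δ ⊆ W) : ∃ f F, IsRM W z₀ f F := by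
  have hz : z₀ ∈ W := h (mem_ball_self hδ)
  have h0 : (0 : ℂ) ∈ invSet z₀ W := Or.inl rfl
  have hsc : IsSimplyConnected (invSet z₀ W) := by
    have := (starConvex_invSet hWc hz).contractibleSpace ⟨0, h0⟩
    exact SimplyConnectedSpace.ofContractible _
  obtain ⟨f, F, h1, h2, h3, h4, h5, h6, h7⟩ :=
    Lib.RMT.riemann_mapping (isOpen_invSet z₀ hW) hsc (isBounded_invSet hδ h) h0
  exact ⟨f, F, hW, hWc, isBounded_invSet hδ h, hz, h1, h2, h3, h4, h5, h6, h7⟩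

namespace IsRM

variable {W : Set ℂ} {z₀ : ℂ} {f F : ℂ → ℂ} (H : IsRM W z₀ f F)
include H

theorem F0 : F 0 = 0 := by
  have := H.Ff 0 (Or.inl rfl)
  rwa [H.f0] at this

theorem injF : InjOn F (ball 0 1) := fun u hu v hv e => by rw [← H.fF u hu, e, H.fF v hv]

theorem F_ne {u : ℂ} (hu : u ∈ ball (0 : ℂ) 1) (hu0 : u ≠ 0) : F u ≠ 0 := fun h =>
  hu0 (H.injF hu (mem_ball_self one_pos) (h.trans H.F0.symm))

theorem dF_ne {u : ℂ} (hu : u ∈ ball (0 : ℂ) 1) : deriv F u ≠ 0 :=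
  Lib.RMT.deriv_ne_zero_of_injOn isOpen_ball H.dF H.injF hu

theorem Z_notMem {u : ℂ} (hu : u ∈ ball (0 : ℂ) 1) (hu0 : u ≠ 0) : z₀ + (F u)⁻¹ ∉ W :=
  (H.mF hu).resolve_left (H.F_ne hu hu0)

theorem sub_ne {ζ : ℂ} (hζ : ζ ∉ W) : ζ - z₀ ≠ 0 := fun h => hζ (sub_eq_zero.1 h ▸ H.hz)

theorem inv_mem {ζ : ℂ} (hζ : ζ ∉ W) : (ζ - z₀)⁻¹ ∈ invSet z₀ W := Or.inr (by simpa using hζ)

theorem tau_ne {ζ : ℂ} (hζ : ζ ∉ W) : f (ζ - z₀)⁻¹ ≠ 0 := by
  intro h
  have := H.Ff _ (H.inv_mem hζ)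
  rw [h, H.F0] at this
  exact inv_ne_zero (H.sub_ne hζ) this.symm

theorem tau_diff {ζ : ℂ} (hζ : ζ ∉ W) : DifferentiableAt ℂ (fun ζ => f (ζ - z₀)⁻¹) ζ := by
  have h1 : DifferentiableAt ℂ (fun ζ : ℂ => (ζ - z₀)⁻¹) ζ :=
    (differentiableAt_id.sub_const z₀).inv (H.sub_ne hζ)
  exact (H.df.differentiableAt ((isOpen_invSet z₀ H.cpt).mem_nhds (H.inv_mem hζ))).comp ζ h1

theorem Z_diff {u : ℂ} (hu : u ∈ ball (0 : ℂ) 1) (hu0 : u ≠ 0) :
    DifferentiableAt ℂ (fun u => z₀ + (F u)⁻¹) u :=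
  ((H.dF.differentiableAt (isOpen_ball.mem_nhds hu)).inv (H.F_ne hu hu0)).const_add z₀

theorem near_boundary {O : Set ℂ} (hO : IsOpen O) (hWO : W ⊆ O) :
    ∃ r < 1, ∀ u : ℂ, r ≤ ‖u‖ → ‖u‖ < 1 → z₀ + (F u)⁻¹ ∈ O := by
  have hsub : invSet z₀ O ⊆ invSet z₀ W := fun y hy => hy.imp_right fun h h' => h (hWO h')
  have hK : IsCompact (invSet z₀ O) :=
    Metric.isCompact_of_isClosed_isBounded (isClosed_invSet z₀ hO) (H.bdd.subset hsub)
  have hK2 : IsCompact (f '' invSet z₀ O) := hK.image_of_continuousOn (H.df.continuousOn.mono hsub)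
  obtain ⟨r, hr, hrs⟩ := exists_lt_subset_ball hK2.isClosed
    ((H.mf.mono_left hsub).image_subset)
  refine ⟨r, hr, fun u hu1 hu2 => ?_⟩
  have hu : u ∈ ball (0 : ℂ) 1 := mem_ball_zero_iff.2 hu2
  by_contra h
  have := hrs ⟨F u, Or.inr h, H.fF u hu⟩
  rw [mem_ball_zero_iff] at this
  linarith

theorem away_boundary {r : ℝ} (hr : r < 1) :
    ∃ ε > 0, ∀ ζ ∉ W, ‖f (ζ - z₀)⁻¹‖ ≤ r → ζ ∉ thickening ε W := by
  have hsub : closedBall (0 : ℂ) r ⊆ ball 0 1 := closedBall_subset_ball hr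
  have hK : IsCompact (F '' closedBall 0 r) :=
    (isCompact_closedBall 0 r).image_of_continuousOn (H.dF.continuousOn.mono hsub)
  obtain ⟨n, hn⟩ := hK.elim_directed_cover
    (fun n : ℕ => invSet z₀ (cthickening (1 / ((n : ℝ) + 1)) W))
    (fun n => isOpen_invSet z₀ H.cpt.cthickening) (by
      rintro _ ⟨u, hu, rfl⟩
      rw [mem_iUnion]
      rcases H.mF (hsub hu) with h | h
      · exact ⟨0, Or.inl h⟩
      · rw [← H.cpt.isClosed.closure_eq, closure_eq_iInter_cthickening] at h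
        simp only [mem_iInter, not_forall] at h
        obtain ⟨ε, hε, h⟩ := h
        obtain ⟨n, hn⟩ := exists_nat_one_div_lt hε
        exact ⟨n, Or.inr fun h' => h (cthickening_mono hn.le W h')⟩)
    (Monotone.directed_le fun m n hmn y hy => hy.imp_right fun h h' => h
      (cthickening_mono (Nat.one_div_le_one_div hmn) W h'))
  refine ⟨1 / ((n : ℝ) + 1), Nat.one_div_pos_of_nat, fun ζ hζ hle h => ?_⟩
  have := hn ⟨_, mem_closedBall_zero_iff.2 hle, H.Ff _ (H.inv_mem hζ)⟩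
  rcases this with h' | h'
  · exact inv_ne_zero (H.sub_ne hζ) h'
  · apply h'
    simpa using thickening_subset_cthickening _ _ h

theorem tendsto_div_F : Tendsto (fun u => u * (F u)⁻¹) (𝓝[≠] 0) (𝓝 (deriv F 0)⁻¹) := by
  have h1 : HasDerivAt F (deriv F 0) 0 :=
    (H.dF.differentiableAt (ball_mem_nhds 0 one_pos)).hasDerivAt
  have h2 := (hasDerivAt_iff_tendsto_slope_zero.1 h1).inv₀ (H.dF_ne (mem_ball_self one_pos))
  refine h2.congr fun u => ?_
  simp [H.F0, mul_comm]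

theorem tendsto_f_div : Tendsto (fun y => y⁻¹ * f y) (𝓝[≠] 0) (𝓝 (deriv F 0)⁻¹) := by
  have h1 : HasDerivAt F (deriv F 0) (f 0) := by
    rw [H.f0]; exact (H.dF.differentiableAt (ball_mem_nhds 0 one_pos)).hasDerivAt
  have hU := (isOpen_invSet z₀ H.cpt).mem_nhds (show (0 : ℂ) ∈ _ from Or.inl rfl)
  have h2 : HasDerivAt f (deriv F 0)⁻¹ 0 :=
    HasDerivAt.of_local_left_inverse (H.df.continuousOn.continuousAt hU) h1
      (H.dF_ne (mem_ball_self one_pos)) (by filter_upwards [hU] with y hy using H.Ff y hy)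
  have h3 := hasDerivAt_iff_tendsto_slope_zero.1 h2
  refine h3.congr fun u => ?_
  simp [H.f0]

/-- Convex combinations of a point of a level curve and a point inside it lie inside it. -/
theorem inside {z₂ : ℂ → ℂ} {γ : ℂ} (hγ : ‖γ‖ ≤ 1)
    (hd : ∀ u ∈ ball (0 : ℂ) 1, u ≠ 0 → DifferentiableAt ℂ z₂ u)
    (hb : ∀ ε > 0, ∃ r < 1, ∀ u : ℂ, r ≤ ‖u‖ → ‖u‖ < 1 → z₂ u ∈ thickening ε W)
    (hl : Tendsto (fun u => u * (z₂ u - z₀)) (𝓝[≠] 0) (𝓝 (γ * (deriv F 0)⁻¹)))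
    {t : ℝ} (ht0 : 0 < t) (ht : t < 1 / 2) {u : ℂ} (hu : u ∈ ball (0 : ℂ) 1) (hu0 : u ≠ 0)
    (hY : (1 - t : ℝ) • (z₀ + (F u)⁻¹) + t • z₂ u ∉ W) :
    ‖u‖ ≤ ‖f ((1 - t : ℝ) • (z₀ + (F u)⁻¹) + t • z₂ u - z₀)⁻¹‖ := by
  set Y : ℂ → ℂ := fun u => (1 - t : ℝ) • (z₀ + (F u)⁻¹) + t • z₂ u with hYdef
  have hYd : ∀ u ∈ ball (0 : ℂ) 1, u ≠ 0 → DifferentiableAt ℂ Y u := by
    intro u hu hu0
    simp only [hYdef, real_smul]
    exact ((H.Z_diff hu hu0).const_mul _).add ((hd u hu hu0).const_mul _)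
  set D : Set ℂ := {u | u ∈ ball (0 : ℂ) 1 ∧ u ≠ 0 ∧ Y u ∉ W} with hD
  have hDo : IsOpen D := by
    rw [isOpen_iff_mem_nhds]
    rintro u ⟨hu, hu0, huY⟩
    filter_upwards [isOpen_ball.mem_nhds hu, isOpen_ne.mem_nhds hu0,
      (hYd u hu hu0).continuousAt.preimage_mem_nhds (H.cpt.isClosed.isOpen_compl.mem_nhds huY)]
      with x h1 h2 h3 using ⟨h1, h2, h3⟩
  set φ : ℂ → ℂ := fun u => u / f (Y u - z₀)⁻¹ with hφ
  have hφd : DifferentiableOn ℂ φ D := by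
    rintro u ⟨hu, hu0, huY⟩
    exact (differentiableAt_id.div ((H.tau_diff huY).comp u (hYd u hu hu0))
      (H.tau_ne huY)).differentiableWithinAt
  -- the limit at the origin
  set d := deriv F 0 with hd0
  have hdne : d ≠ 0 := H.dF_ne (mem_ball_self one_pos)
  set β : ℂ := (1 - t : ℝ) + t * γ with hβ
  have hβ1 : ‖β‖ ≤ 1 := by
    calc ‖β‖ ≤ ‖((1 - t : ℝ) : ℂ)‖ + ‖(t : ℂ) * γ‖ := norm_add_le _ _
      _ = (1 - t) + t * ‖γ‖ := by
        rw [norm_mul, norm_real, norm_real, Real.norm_of_nonneg (by linarith),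
          Real.norm_of_nonneg ht0.le]
      _ ≤ 1 := by nlinarith
  have hβ0 : β ≠ 0 := by
    intro h
    have h1 : ((1 - t : ℝ) : ℂ) = -(t * γ) := by linear_combination h
    have h2 := congrArg norm h1
    rw [norm_neg, norm_mul, norm_real, norm_real, Real.norm_of_nonneg (by linarith),
      Real.norm_of_nonneg ht0.le] at h2
    nlinarith
  have hl1 : Tendsto (fun u => u * (Y u - z₀)) (𝓝[≠] 0) (𝓝 (β * d⁻¹)) := by
    have := (H.tendsto_div_F.const_mul ((1 - t : ℝ) : ℂ)).add (hl.const_mul (t : ℂ))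
    convert this using 2 with u
    · simp only [hYdef, real_smul]; push_cast; ring
    · rw [hβ]; ring
  have hne : β * d⁻¹ ≠ 0 := mul_ne_zero hβ0 (inv_ne_zero hdne)
  have hev : ∀ᶠ u in 𝓝[≠] (0 : ℂ), u * (Y u - z₀) ≠ 0 := hl1.eventually_ne hne
  have hl2 : Tendsto (fun u => (Y u - z₀)⁻¹) (𝓝[≠] 0) (𝓝[≠] 0) := by
    refine tendsto_nhdsWithin_iff.2 ⟨?_, ?_⟩
    · have h1 : Tendsto (fun u : ℂ => u) (𝓝[≠] 0) (𝓝 0) := tendsto_id.mono_left nhdsWithin_le_nhds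
      have h2 := h1.mul (hl1.inv₀ hne)
      rw [zero_mul] at h2
      refine h2.congr' ?_
      filter_upwards [self_mem_nhdsWithin] with u (hu : u ≠ 0)
      rw [mul_inv, ← mul_assoc, mul_inv_cancel₀ hu, one_mul]
    · filter_upwards [hev] with u hu
      exact inv_ne_zero (right_ne_zero_of_mul hu)
  have hl3 : Tendsto φ (𝓝[≠] 0) (𝓝 β) := by
    have h1 := hl1.mul ((H.tendsto_f_div.comp hl2).inv₀ (inv_ne_zero hdne))
    have e : β * d⁻¹ * d⁻¹⁻¹ = β := by field_simp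
    rw [e] at h1
    refine h1.congr' ?_
    filter_upwards [hev] with u hu
    have := right_ne_zero_of_mul hu
    simp only [hφ, Function.comp, inv_inv, mul_inv]
    field_simp
  have key := maxp hDo hφd (fun s hs => ?_) u ⟨hu, hu0, hY⟩
  · rw [hφ] at key
    simp only [norm_div] at key
    exact (div_le_one (norm_pos_iff.2 (H.tau_ne hY))).1 key
  -- compactness of the superlevel sets
  have hs0 : 0 < s := by linarith
  obtain ⟨ε₂, hε₂, h₂⟩ := H.away_boundary (r := s⁻¹) (inv_lt_one_of_one_lt₀ hs)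
  obtain ⟨r₁, hr₁, h₁⟩ := H.near_boundary (isOpen_thickening (δ := ε₂) (E := W))
    (self_subset_thickening hε₂ W)
  obtain ⟨r₂, hr₂, h₂'⟩ := hb ε₂ hε₂
  have hev2 : ∀ᶠ u in 𝓝[≠] (0 : ℂ), ‖φ u‖ < s :=
    hl3.norm.eventually (gt_mem_nhds (hβ1.trans_lt hs))
  obtain ⟨ε, hε, hεs⟩ := Metric.eventually_nhds_iff.1 (eventually_nhdsWithin_iff.1 hev2)
  set r := max r₁ r₂ with hr
  have hr1 : r < 1 := max_lt hr₁ hr₂
  set A : Set ℂ := closedBall 0 r \ ball 0 ε with hA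
  have hAc : IsCompact A := (isCompact_closedBall 0 r).diff isOpen_ball
  have hA1 : ∀ u ∈ A, u ∈ ball (0 : ℂ) 1 ∧ u ≠ 0 := fun u hu =>
    ⟨closedBall_subset_ball hr1 hu.1, fun h => hu.2 (h ▸ mem_ball_self hε)⟩
  have hYc : ContinuousOn Y A := fun u hu =>
    (hYd u (hA1 u hu).1 (hA1 u hu).2).continuousAt.continuousWithinAt
  set C : Set ℂ := A ∩ Y ⁻¹' (thickening ε₂ W)ᶜ with hC
  have hCc : IsCompact C := hAc.of_isClosed_subset
    (hYc.preimage_isClosed_of_isClosed hAc.isClosed isOpen_thickening.isClosed_compl)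
    inter_subset_left
  have hCD : C ⊆ D := fun u hu =>
    ⟨(hA1 u hu.1).1, (hA1 u hu.1).2, fun h => hu.2 (self_subset_thickening hε₂ W h)⟩
  have hE : {u | u ∈ D ∧ s ≤ ‖φ u‖} = C ∩ (fun u => ‖φ u‖) ⁻¹' Ici s := by
    ext u
    refine ⟨fun ⟨huD, hus⟩ => ⟨?_, hus⟩, fun ⟨huC, hus⟩ => ⟨hCD huC, hus⟩⟩
    obtain ⟨hu, hu0, huY⟩ := huD
    have hu1 : ‖u‖ < 1 := mem_ball_zero_iff.1 hu
    have hτ : 0 < ‖f (Y u - z₀)⁻¹‖ := norm_pos_iff.2 (H.tau_ne huY)
    have h3 : ‖f (Y u - z₀)⁻¹‖ ≤ s⁻¹ := by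
      simp only [hφ, norm_div] at hus
      rw [le_div_iff₀ hτ] at hus
      rw [le_inv_comm₀ hτ hs0, ← one_div, le_div_iff₀ hτ]
      linarith
    have h4 := h₂ _ huY h3
    refine ⟨⟨?_, fun h => ?_⟩, h4⟩
    · rw [mem_closedBall_zero_iff]
      by_contra hlt
      push Not at hlt
      exact h4 ((H.cvx.thickening ε₂) (h₁ u ((le_max_left _ _).trans hlt.le) hu1)
        (h₂' u ((le_max_right _ _).trans hlt.le) hu1) (by linarith) ht0.le (by ring))
    · exact absurd (hεs h hu0) (not_lt.2 hus)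
  rw [hE]
  exact hCc.of_isClosed_subset
    (((hφd.continuousOn.mono hCD).norm).preimage_isClosed_of_isClosed hCc.isClosed isClosed_Ici)
    inter_subset_left

/-- Infinitesimal form. -/
theorem support {u ζ : ℂ} (hu : u ∈ ball (0 : ℂ) 1) (hu0 : u ≠ 0)
    (h : ∀ t : ℝ, 0 < t → t < 1 / 2 → (1 - t : ℝ) • (z₀ + (F u)⁻¹) + t • ζ ∉ W →
      ‖u‖ ≤ ‖f ((1 - t : ℝ) • (z₀ + (F u)⁻¹) + t • ζ - z₀)⁻¹‖) :
    0 ≤ ((z₀ + (F u)⁻¹ - ζ) * conj (-u * deriv (fun u => z₀ + (F u)⁻¹) u)).re := by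
  set Z : ℂ → ℂ := fun u => z₀ + (F u)⁻¹ with hZ
  set τ : ℂ → ℂ := fun ζ => f (ζ - z₀)⁻¹ with hτ
  have hZW : Z u ∉ W := H.Z_notMem hu hu0
  have hτZ : (τ ∘ Z) =ᶠ[𝓝 u] id := by
    filter_upwards [isOpen_ball.mem_nhds hu] with y hy
    simp [hτ, hZ, H.fF y hy]
  have hτu : τ (Z u) = u := hτZ.self_of_nhds
  have hdZ := (H.Z_diff hu hu0).hasDerivAt
  have hdτ := (H.tau_diff hZW).hasDerivAt
  have hprod : deriv τ (Z u) * deriv Z u = 1 := by
    have h1 := (hdτ.comp u hdZ).deriv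
    have h2 : deriv (τ ∘ Z) u = 1 := by rw [hτZ.deriv_eq, deriv_id]
    exact h1.symm.trans h2
  set p : ℝ → ℂ := fun t => (1 - t : ℝ) • Z u + t • ζ with hp
  have hp0 : p 0 = Z u := by simp [hp]
  have hpd : HasDerivAt p (ζ - Z u) 0 := by
    have h1 : HasDerivAt (fun t : ℝ => (1 - t)) (-1) 0 := by
      simpa using (hasDerivAt_id (0 : ℝ)).const_sub 1
    have h2 := (h1.smul_const (Z u)).fun_add ((hasDerivAt_id (0 : ℝ)).smul_const ζ)
    have e : ζ - Z u = (-1 : ℝ) • Z u + (1 : ℝ) • ζ := by simp; ring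
    rw [e]
    exact h2
  have hq : HasDerivAt (fun t => τ (p t)) (deriv τ (Z u) * (ζ - Z u)) 0 := by
    have h1 : HasDerivAt τ (deriv τ (Z u)) (p 0) := by rw [hp0]; exact hdτ
    have := h1.hasFDerivAt.restrictScalars ℝ |>.comp_hasDerivAt (0 : ℝ) hpd
    have e : deriv τ (Z u) * (ζ - Z u) = (ContinuousLinearMap.restrictScalars ℝ
      (ContinuousLinearMap.toSpanSingleton ℂ (deriv τ (Z u)))) (ζ - Z u) := by simp [mul_comm]
    rw [e]
    exact this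
  have hn := hq.norm_sq
  rw [hp0, hτu] at hn
  have hev : ∀ᶠ t in 𝓝[>] (0 : ℝ), ‖τ (p 0)‖ ^ 2 ≤ ‖τ (p t)‖ ^ 2 := by
    have h1 : ∀ᶠ t in 𝓝 (0 : ℝ), p t ∉ W :=
      hpd.continuousAt.preimage_mem_nhds (H.cpt.isClosed.isOpen_compl.mem_nhds (hp0 ▸ hZW))
    filter_upwards [nhdsWithin_le_nhds h1, self_mem_nhdsWithin,
      nhdsWithin_le_nhds (gt_mem_nhds (show (0 : ℝ) < 1 / 2 by norm_num))] with t h1 h2 h3
    rw [hp0, hτu]
    exact pow_le_pow_left₀ (norm_nonneg _) (h t h2 h3 h1) 2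
  have hge : 0 ≤ 2 * inner ℝ u (deriv τ (Z u) * (ζ - Z u)) := by
    have h1 := (hasDerivAt_iff_tendsto_slope_zero.1 hn).mono_left (nhdsGT_le_nhdsNE 0)
    refine ge_of_tendsto h1 ?_
    filter_upwards [hev, self_mem_nhdsWithin] with t h1 (h2 : 0 < t)
    simp only [zero_add, smul_eq_mul]
    exact mul_nonneg (inv_nonneg.2 h2.le) (sub_nonneg.2 h1)
  have e : (Z u - ζ) * conj (-u * deriv Z u) =
      (deriv τ (Z u) * (ζ - Z u) * conj u) * ((normSq (deriv Z u) : ℝ) : ℂ) := by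
    rw [normSq_eq_conj_mul_self]
    simp only [map_mul, map_neg]
    linear_combination (-(ζ - Z u) * conj u * conj (deriv Z u)) * hprod
  change 0 ≤ ((Z u - ζ) * conj (-u * deriv Z u)).re
  rw [e, re_mul_ofReal]
  refine mul_nonneg ?_ (normSq_nonneg _)
  rw [Complex.inner] at hge
  linarith

theorem support_const {u w : ℂ} (hu : u ∈ ball (0 : ℂ) 1) (hu0 : u ≠ 0) (hw : w ∈ W) :
    0 ≤ ((z₀ + (F u)⁻¹ - w) * conj (-u * deriv (fun u => z₀ + (F u)⁻¹) u)).re := by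
  refine H.support hu hu0 fun t ht0 ht hY => ?_
  refine H.inside (z₂ := fun _ => w) (γ := 0) (by simp) (fun _ _ _ => differentiableAt_const _)
    (fun ε hε => ⟨0, one_pos, fun _ _ _ => self_subset_thickening hε W hw⟩) ?_ ht0 ht hu hu0 hY
  have h1 : Tendsto (fun u : ℂ => u) (𝓝[≠] 0) (𝓝 0) := tendsto_id.mono_left nhdsWithin_le_nhds
  simpa using h1.mul_const (w - z₀)

theorem support_rot {u v : ℂ} (hu : u ∈ ball (0 : ℂ) 1) (hu0 : u ≠ 0) (huv : ‖v‖ = ‖u‖) :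
    0 ≤ ((z₀ + (F u)⁻¹ - (z₀ + (F v)⁻¹)) *
      conj (-u * deriv (fun u => z₀ + (F u)⁻¹) u)).re := by
  set ω := v / u with hω
  have hω1 : ‖ω‖ = 1 := by rw [hω, norm_div, huv, div_self (norm_ne_zero_iff.2 hu0)]
  have hω0 : ω ≠ 0 := fun h => by simp [h] at hω1
  have hv : v = ω * u := by rw [hω]; field_simp
  have hn : ∀ y : ℂ, ‖ω * y‖ = ‖y‖ := fun y => by rw [norm_mul, hω1, one_mul]
  refine H.support hu hu0 fun t ht0 ht hY => ?_
  rw [hv] at hY ⊢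
  refine H.inside (z₂ := fun y => z₀ + (F (ω * y))⁻¹) (γ := ω⁻¹) (by simp [hω1]) ?_ ?_ ?_
    ht0 ht hu hu0 hY
  · intro y hy hy0
    exact (H.Z_diff (u := ω * y) (by rw [mem_ball_zero_iff, hn]; exact mem_ball_zero_iff.1 hy) (mul_ne_zero hω0 hy0)).comp y
      (differentiableAt_id.const_mul ω)
  · intro ε hε
    obtain ⟨r, hr, h⟩ := H.near_boundary (isOpen_thickening (δ := ε) (E := W))
      (self_subset_thickening hε W)
    exact ⟨r, hr, fun y h1 h2 => h _ (by rwa [hn]) (by rwa [hn])⟩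
  · have h1 : Tendsto (fun y : ℂ => ω * y) (𝓝[≠] 0) (𝓝[≠] 0) := by
      refine tendsto_nhdsWithin_iff.2 ⟨?_, ?_⟩
      · have : Tendsto (fun y : ℂ => ω * y) (𝓝 0) (𝓝 (ω * 0)) :=
          (continuous_const.mul continuous_id).tendsto 0
        rw [mul_zero] at this
        exact this.mono_left nhdsWithin_le_nhds
      · filter_upwards [self_mem_nhdsWithin] with y (hy : y ≠ 0) using mul_ne_zero hω0 hy
    refine ((H.tendsto_div_F.comp h1).const_mul ω⁻¹).congr fun y => ?_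
    simp only [Function.comp, add_sub_cancel_left]
    field_simp

end IsRM

theorem hasDerivAt_zf {c : ℂ} {g : ℂ → ℂ} {u : ℂ} (hu : u ≠ 0) (hg : DifferentiableAt ℂ g u) :
    HasDerivAt (zf c g) (-nf c g u / u) u := by
  have h1 : HasDerivAt (fun u : ℂ => c / u) (-c / u ^ 2) u := by
    simpa using (hasDerivAt_const u c).fun_div (hasDerivAt_id u) hu
  have h2 := h1.fun_add hg.hasDerivAt
  have e : -nf c g u / u = -c / u ^ 2 + deriv g u := by
    rw [nf]; field_simp; ring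
  rw [e]
  exact h2

theorem zf_sub_zf {c : ℂ} {g : ℂ → ℂ} {u v : ℂ} (hu : u ≠ 0) (hv : v ≠ 0) :
    zf c g u - zf c g v = (v - u) * (c - u * v * dslope g u v) / (u * v) := by
  have h := sub_smul_dslope g u v
  rw [smul_eq_mul] at h
  rw [zf, zf]
  field_simp
  linear_combination (u * v) * h

theorem exists_isExt {W Ω : Set ℂ} (hW : IsCompact W) (hWc : Convex ℝ W) (hne : W.Nonempty)
    (hΩ : IsOpen Ω) (hWΩ : W ⊆ Ω) : ∃ R c g, IsExt W Ω R c g := by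
  obtain ⟨δ, hδ, hδΩ⟩ := hW.exists_cthickening_subset_open hΩ hWΩ
  obtain ⟨z₀, hz₀⟩ := hne
  have hWW : W ⊆ cthickening δ W := self_subset_cthickening W
  obtain ⟨f, F, H⟩ := exists_isRM (hW.cthickening (r := δ)) (hWc.cthickening δ) hδ
    (ball_subset_closedBall.trans (closedBall_subset_cthickening hz₀ δ))
  obtain ⟨r', hr', hin⟩ := H.near_boundary hΩ hδΩ
  set r := max r' (1 / 2) with hr
  have hr0 : 0 < r := lt_max_of_lt_right (by norm_num)
  have hr1 : r < 1 := max_lt hr' (by norm_num)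
  have hrc : (r : ℂ) ≠ 0 := by exact_mod_cast hr0.ne'
  have hn : ∀ u : ℂ, ‖(r : ℂ) * u‖ = r * ‖u‖ := fun u => by
    rw [norm_mul, norm_real, Real.norm_of_nonneg hr0.le]
  have hmem : ∀ u ∈ ball (0 : ℂ) r⁻¹, (r : ℂ) * u ∈ ball (0 : ℂ) 1 := by
    intro u hu
    rw [mem_ball_zero_iff] at hu ⊢
    rw [hn]
    calc r * ‖u‖ < r * r⁻¹ := by gcongr
      _ = 1 := mul_inv_cancel₀ hr0.ne'
  have h0 : (0 : ℂ) ∈ ball (0 : ℂ) r⁻¹ := mem_ball_self (inv_pos.2 hr0)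
  set G : ℂ → ℂ := fun u => F (r * u) with hG
  have hGd : DifferentiableOn ℂ G (ball 0 r⁻¹) :=
    H.dF.comp (differentiableOn_id.const_mul _) hmem
  have hG0 : G 0 = 0 := by simp [hG, H.F0]
  have hF₁ : DifferentiableOn ℂ (dslope G 0) (ball 0 r⁻¹) :=
    (differentiableOn_dslope (isOpen_ball.mem_nhds h0)).2 hGd
  have hF₁e : ∀ u, u * dslope G 0 u = G u := fun u => by
    simpa [hG0] using sub_smul_dslope G 0 u
  have hF₁0 : ∀ u ∈ ball (0 : ℂ) r⁻¹, dslope G 0 u ≠ 0 := by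
    intro u hu h
    by_cases hu0 : u = 0
    · subst hu0
      rw [dslope_same] at h
      have h1 : HasDerivAt G (deriv F (r * 0) * (r * 1)) 0 :=
        (H.dF.differentiableAt (isOpen_ball.mem_nhds (hmem 0 h0))).hasDerivAt.comp 0
          ((hasDerivAt_id (0 : ℂ)).const_mul (r : ℂ))
      rw [h1.deriv] at h
      exact mul_ne_zero (H.dF_ne (hmem 0 h0)) (by simpa using hr0.ne') h
    · have := hF₁e u
      rw [h, mul_zero] at this
      exact H.F_ne (hmem u hu) (mul_ne_zero hrc hu0) this.symm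
  set G₁ : ℂ → ℂ := fun u => (dslope G 0 u)⁻¹ with hG₁
  have hG₁d : DifferentiableOn ℂ G₁ (ball 0 r⁻¹) := hF₁.inv hF₁0
  set g : ℂ → ℂ := fun u => z₀ + dslope G₁ 0 u with hg
  have hgd : DifferentiableOn ℂ g (ball 0 r⁻¹) :=
    ((differentiableOn_dslope (isOpen_ball.mem_nhds h0)).2 hG₁d).const_add z₀
  set c := G₁ 0 with hc
  have hc0 : c ≠ 0 := inv_ne_zero (hF₁0 0 h0)
  have hz : ∀ u : ℂ, u ≠ 0 → zf c g u = z₀ + (F (r * u))⁻¹ := by
    intro u hu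
    have h1 := sub_smul_dslope G₁ 0 u
    simp only [sub_zero, smul_eq_mul] at h1
    have h2 : (F (r * u))⁻¹ = G₁ u / u := by
      change (G u)⁻¹ = _
      rw [← hF₁e u, mul_inv, hG₁]; ring
    rw [zf, h2, hg]
    field_simp
    linear_combination h1
  have hnf : ∀ u ∈ ball (0 : ℂ) r⁻¹, u ≠ 0 →
      nf c g u = -(r * u) * deriv (fun u => z₀ + (F u)⁻¹) (r * u) := by
    intro u hu hu0
    have h1 := hasDerivAt_zf (c := c) hu0 (hgd.differentiableAt (isOpen_ball.mem_nhds hu))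
    have h2 := (H.Z_diff (hmem u hu) (mul_ne_zero hrc hu0)).hasDerivAt.comp u
      ((hasDerivAt_id u).const_mul (r : ℂ))
    have h3 : zf c g =ᶠ[𝓝 u] ((fun u => z₀ + (F u)⁻¹) ∘ fun y => (r : ℂ) * id y) := by
      filter_upwards [isOpen_ne.mem_nhds hu0] with y hy using hz y hy
    have h4 := (h1.congr_of_eventuallyEq h3.symm).unique h2
    rw [div_eq_iff hu0] at h4
    linear_combination -h4
  have hR : 1 < r⁻¹ := one_lt_inv₀ hr0 |>.2 hr1
  have hunit : ∀ u : ℂ, ‖u‖ = 1 → u ∈ ball (0 : ℂ) r⁻¹ ∧ u ≠ 0 := fun u hu =>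
    ⟨mem_ball_zero_iff.2 (hu ▸ hR), fun h => by simp [h] at hu⟩
  refine ⟨r⁻¹, c, g, hR, hc0, hgd, ?_, ?_, ?_, ?_, ?_⟩
  · intro u hu v hv h
    by_cases hu0 : u = 0
    · simp [hu0, hc0] at h
    by_cases hv0 : v = 0
    · simp [hv0, hc0] at h
    by_cases huv : u = v
    · subst huv
      rw [dslope_same] at h
      have h1 := hnf u hu hu0
      have h2 : nf c g u = 0 := by
        rw [nf]; field_simp; linear_combination h
      rw [h2] at h1
      have h3 : HasDerivAt (fun u => z₀ + (F u)⁻¹) (-deriv F (r * u) / F (r * u) ^ 2) (r * u) :=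
        ((H.dF.differentiableAt (isOpen_ball.mem_nhds (hmem u hu))).hasDerivAt.fun_inv
          (H.F_ne (hmem u hu) (mul_ne_zero hrc hu0))).const_add z₀
      rw [h3.deriv] at h1
      exact mul_ne_zero (neg_ne_zero.2 (mul_ne_zero hrc hu0)) (div_ne_zero
        (neg_ne_zero.2 (H.dF_ne (hmem u hu)))
        (pow_ne_zero 2 (H.F_ne (hmem u hu) (mul_ne_zero hrc hu0)))) h1.symm
    · have h1 := zf_sub_zf (c := c) (g := g) hu0 hv0
      rw [h, mul_zero, zero_div, hz u hu0, hz v hv0, sub_eq_zero, add_right_inj, inv_inj] at h1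
      exact huv (mul_left_cancel₀ hrc (H.injF (hmem u hu) (hmem v hv) h1))
  · intro u v hu hv
    rw [hz u (hunit u hu).2, hz v (hunit v hv).2, hnf u (hunit u hu).1 (hunit u hu).2]
    exact H.support_rot (hmem u (hunit u hu).1) (mul_ne_zero hrc (hunit u hu).2)
      (by rw [hn, hn, hu, hv])
  · intro u hu w hw
    rw [hz u (hunit u hu).2, hnf u (hunit u hu).1 (hunit u hu).2]
    exact H.support_const (hmem u (hunit u hu).1) (mul_ne_zero hrc (hunit u hu).2) (hWW hw)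
  · intro u hu hu0 h
    rw [hz u hu0] at h
    exact H.Z_notMem (hmem u hu) (mul_ne_zero hrc hu0) (hWW h)
  · intro u hu1 hu2
    rw [hz u (fun h => by simp [h] at hu1; linarith)]
    refine hin _ ?_ (mem_ball_zero_iff.1 (hmem u (mem_ball_zero_iff.2 hu2)))
    rw [hn]
    exact (le_max_left _ _).trans (le_mul_of_one_le_right hr0.le hu1)

end Crest.Agent.R132
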