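import Mathlib
import Crest.Agent.R132.Exterior
import Crest.Agent.R132.Avg

/-! The double layer kernel in the exterior parametrisation and the key `L²` inequality. -/

open Set Filter Metric Function Complex Real
open scoped Topology ComplexConjugate

namespace Crest.Agent.R132

/-- The regular part of the Cauchy kernel. -/
noncomputable def kap (c : ℂ) (g : ℂ → ℂ) (u v : ℂ) : ℂ :=
  u * v * (dslope g u v + u * dslope (dslope g u) u v) / (c - u * v * dslope g u v)

theorem re_div_sub {u v : ℂ} (hu : ‖u‖ = 1) (hv : ‖v‖ = 1) (huv : u ≠ v) :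
    (v / (v - u)).re = 1 / 2 := by
  have h0 : normSq (v - u) ≠ 0 := by simpa [sub_eq_zero] using huv.symm
  have hu' : u.re * u.re + u.im * u.im = 1 := by
    rw [← normSq_apply, normSq_eq_norm_sq, hu]; norm_num
  have hv' : v.re * v.re + v.im * v.im = 1 := by
    rw [← normSq_apply, normSq_eq_norm_sq, hv]; norm_num
  rw [div_re, ← add_div, div_eq_iff h0, normSq_apply]
  simp only [sub_re, sub_im]
  nlinarith

namespace IsExt

variable {W Ω : Set ℂ} {R : ℝ} {c : ℂ} {g : ℂ → ℂ} (H : IsExt W Ω R c g)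
include H

omit H in
theorem sph {ρ : ℝ} (hρ : ρ < R) : sphere (0 : ℂ) ρ ⊆ ball 0 R :=
  sphere_subset_closedBall.trans (closedBall_subset_ball hρ)

theorem mem1 {u : ℂ} (hu : ‖u‖ = 1) : u ∈ ball (0 : ℂ) R := mem_ball_zero_iff.2 (hu ▸ H.hR)

theorem D1_cont : ContinuousOn (uncurry fun u v => dslope g u v) (ball 0 R ×ˢ ball 0 R) :=
  continuousOn_dslope_param (F := fun _ => g)
    (H.hg.continuousOn.comp continuousOn_snd fun _ hp => hp.2) fun _ _ => H.hg

theorem D1_diff {u : ℂ} (hu : u ∈ ball (0 : ℂ) R) : DifferentiableOn ℂ (dslope g u) (ball 0 R) :=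
  (differentiableOn_dslope (isOpen_ball.mem_nhds hu)).2 H.hg

theorem D2_cont :
    ContinuousOn (uncurry fun u v => dslope (dslope g u) u v) (ball 0 R ×ˢ ball 0 R) :=
  continuousOn_dslope_param (F := fun u => dslope g u) H.D1_cont fun _ hu => H.D1_diff hu

theorem kap_cont : ContinuousOn (uncurry (kap c g)) (ball 0 R ×ˢ ball 0 R) := by
  have h1 := H.D1_cont
  have h2 := H.D2_cont
  refine ContinuousOn.div (f := fun p : ℂ × ℂ => p.1 * p.2 *
      (dslope g p.1 p.2 + p.1 * dslope (dslope g p.1) p.1 p.2))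
    (g := fun p : ℂ × ℂ => c - p.1 * p.2 * dslope g p.1 p.2)
    ((continuousOn_fst.mul continuousOn_snd).mul (h1.add (continuousOn_fst.mul h2)))
    (continuousOn_const.sub ((continuousOn_fst.mul continuousOn_snd).mul h1))
    fun p hp => H.den _ hp.1 _ hp.2

theorem kap_diff_right {u : ℂ} (hu : u ∈ ball (0 : ℂ) R) :
    DifferentiableOn ℂ (kap c g u) (ball 0 R) := by
  have h1 := H.D1_diff hu
  have h2 : DifferentiableOn ℂ (dslope (dslope g u) u) (ball 0 R) :=
    (differentiableOn_dslope (isOpen_ball.mem_nhds hu)).2 h1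
  exact DifferentiableOn.div (by fun_prop) (by fun_prop) fun v hv => H.den u hu v hv

theorem kap_diff_left {v : ℂ} (hv : v ∈ ball (0 : ℂ) R) :
    DifferentiableOn ℂ (fun u => kap c g u v) (ball 0 R) := by
  rw [← Complex.differentiableOn_compl_singleton_and_continuousAt_iff (isOpen_ball.mem_nhds hv)]
  constructor
  · rintro u ⟨hu, huv⟩
    have huv : v - u ≠ 0 := fun h => huv (sub_eq_zero.1 h).symm
    have hg1 : DifferentiableAt ℂ g u := H.hg.differentiableAt (isOpen_ball.mem_nhds hu)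
    have hg2 : DifferentiableAt ℂ (deriv g) u :=
      (H.hg.deriv isOpen_ball).differentiableAt (isOpen_ball.mem_nhds hu)
    have hev : ∀ᶠ y in 𝓝 u, v - y ≠ 0 :=
      (continuousAt_const.sub continuousAt_id).eventually_ne huv
    have e1 : (fun y => dslope g y v) =ᶠ[𝓝 u] fun y => (v - y)⁻¹ * (g v - g y) := by
      filter_upwards [hev] with y hy
      rw [dslope_of_ne _ (sub_ne_zero.1 hy), slope]; simp
    have d1 : DifferentiableAt ℂ (fun y => dslope g y v) u :=
      DifferentiableAt.congr_of_eventuallyEq (by fun_prop (disch := assumption)) e1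
    have e2 : (fun y => dslope (dslope g y) y v) =ᶠ[𝓝 u]
        fun y => (v - y)⁻¹ * (dslope g y v - deriv g y) := by
      filter_upwards [hev] with y hy
      rw [dslope_of_ne _ (sub_ne_zero.1 hy), slope]; simp
    have d2 : DifferentiableAt ℂ (fun y => dslope (dslope g y) y v) u :=
      DifferentiableAt.congr_of_eventuallyEq (by fun_prop (disch := assumption)) e2
    refine DifferentiableAt.differentiableWithinAt ?_
    exact DifferentiableAt.div (by fun_prop) (by fun_prop) (H.den u hu v hv)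
  · refine ContinuousOn.continuousAt (s := ball 0 R) ?_ (isOpen_ball.mem_nhds hv)
    exact H.kap_cont.comp (f := fun u : ℂ => (u, v)) (by fun_prop) fun u hu => ⟨hu, hv⟩

omit H in
theorem kap_zero_left (v : ℂ) : kap c g 0 v = 0 := by simp [kap]

omit H in
theorem kap_zero_right (u : ℂ) : kap c g u 0 = 0 := by simp [kap]

theorem zf_ne {u v : ℂ} (hu : u ∈ ball (0 : ℂ) R) (hv : v ∈ ball (0 : ℂ) R) (hu0 : u ≠ 0)
    (hv0 : v ≠ 0) (huv : u ≠ v) : zf c g u - zf c g v ≠ 0 := by
  rw [zf_sub_zf hu0 hv0]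
  exact div_ne_zero (mul_ne_zero (sub_ne_zero.2 huv.symm) (H.den u hu v hv)) (mul_ne_zero hu0 hv0)

theorem kap_eq {u v : ℂ} (hu : u ∈ ball (0 : ℂ) R) (hv : v ∈ ball (0 : ℂ) R) (hu0 : u ≠ 0)
    (hv0 : v ≠ 0) (huv : u ≠ v) :
    nf c g u / (zf c g u - zf c g v) = v / (v - u) + kap c g u v := by
  have h1 := sub_smul_dslope (dslope g u) u v
  rw [smul_eq_mul, dslope_same] at h1
  have h2 := H.den u hu v hv
  have h3 : v - u ≠ 0 := sub_ne_zero.2 huv.symm
  rw [zf_sub_zf hu0 hv0, kap, nf]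
  field_simp
  linear_combination (-(u ^ 2)) * h1

theorem k_nonneg {u v : ℂ} (hu : ‖u‖ = 1) (hv : ‖v‖ = 1) : 0 ≤ 1 + 2 * (kap c g u v).re := by
  have key : ∀ u : ℂ, ‖u‖ = 1 → u ≠ v → 0 ≤ 1 + 2 * (kap c g u v).re := by
    intro u hu huv
    have hu0 : u ≠ 0 := fun h => by simp [h] at hu
    have hv0 : v ≠ 0 := fun h => by simp [h] at hv
    have h1 := congrArg re (H.kap_eq (H.mem1 hu) (H.mem1 hv) hu0 hv0 huv)
    rw [add_re, re_div_sub hu hv huv] at h1
    have h2 := H.conv u v hu hv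
    have h3 : 0 ≤ (nf c g u / (zf c g u - zf c g v)).re := by
      rw [div_re, ← add_div]
      refine div_nonneg ?_ (normSq_nonneg _)
      simp only [mul_re, conj_re, conj_im] at h2
      linarith
    linarith
  by_cases huv : u = v
  swap
  · exact key u hu huv
  subst huv
  have hc : ContinuousAt (fun θ : ℝ => kap c g (u * exp (θ * I)) u) 0 := by
    have h1 : ContinuousAt (fun y => kap c g y u) (u * exp ((0 : ℝ) * I)) := by
      simpa using (H.kap_diff_left (H.mem1 hu)).continuousOn.continuousAt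
        (isOpen_ball.mem_nhds (H.mem1 hu))
    exact ContinuousAt.comp (f := fun θ : ℝ => u * exp (θ * I)) h1 (by fun_prop)
  have hc2 : Tendsto (fun θ : ℝ => 1 + 2 * (kap c g (u * exp (θ * I)) u).re) (𝓝[>] 0)
      (𝓝 (1 + 2 * (kap c g u u).re)) := by
    have := ((continuous_re.continuousAt.comp hc).const_mul 2).const_add 1
    simpa using this.tendsto.mono_left nhdsWithin_le_nhds
  refine ge_of_tendsto hc2 ?_
  filter_upwards [Ioo_mem_nhdsGT (show (0 : ℝ) < 2 * π from two_pi_pos)] with θ hθ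
  refine key _ (by simp [hu]) fun h => ?_
  have hu0 : u ≠ 0 := fun h => by simp [h] at hu
  have h1 : cexp (θ * I) = 1 := mul_left_cancel₀ hu0 (h.trans (mul_one u).symm)
  obtain ⟨n, hn⟩ := Complex.exp_eq_one_iff.1 h1
  have h2 : θ = n * (2 * π) := by
    have := congrArg im hn
    simpa using this
  have h3 : (0 : ℝ) < n := by
    have := hθ.1; rw [h2] at this
    by_contra hn'
    push Not at hn'
    nlinarith [two_pi_pos]
  have h4 : (n : ℝ) < 1 := by
    have := hθ.2; rw [h2] at this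
    nlinarith [two_pi_pos]
  have h5 : (0 : ℤ) < n := by exact_mod_cast h3
  have h6 : n < 1 := by exact_mod_cast h4
  omega

theorem zf_diff {u : ℂ} (hu : u ∈ ball (0 : ℂ) R) (hu0 : u ≠ 0) :
    DifferentiableAt ℂ (zf c g) u :=
  (hasDerivAt_zf hu0 (H.hg.differentiableAt (isOpen_ball.mem_nhds hu))).differentiableAt

theorem nf_diff {u : ℂ} (hu : u ∈ ball (0 : ℂ) R) (hu0 : u ≠ 0) :
    DifferentiableAt ℂ (nf c g) u := by
  have hg2 : DifferentiableAt ℂ (deriv g) u :=
    (H.hg.deriv isOpen_ball).differentiableAt (isOpen_ball.mem_nhds hu)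
  unfold nf
  fun_prop (disch := assumption)

theorem eps_diff (hΩ : IsOpen Ω) {h : ℂ → ℂ} (hh : DifferentiableOn ℂ h Ω) {u : ℂ}
    (h1 : 1 ≤ ‖u‖) (h2 : ‖u‖ < R) : DifferentiableAt ℂ (fun u => nf c g u * h (zf c g u)) u := by
  have hu0 : u ≠ 0 := fun h => by simp [h] at h1; linarith
  have hu : u ∈ ball (0 : ℂ) R := mem_ball_zero_iff.2 h2
  exact (H.nf_diff hu hu0).mul
    ((hh.differentiableAt (hΩ.mem_nhds (H.inn u h1 h2))).comp u (H.zf_diff hu hu0))

theorem eps_cont (hΩ : IsOpen Ω) {h : ℂ → ℂ} (hh : DifferentiableOn ℂ h Ω) {ρ : ℝ}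
    (h1 : 1 ≤ ρ) (h2 : ρ < R) : ContinuousOn (fun u => nf c g u * h (zf c g u)) (sphere 0 ρ) := by
  intro u hu
  rw [mem_sphere_zero_iff_norm] at hu
  exact (H.eps_diff hΩ hh (hu ▸ h1) (hu ▸ h2)).continuousAt.continuousWithinAt

theorem av_eps (hΩ : IsOpen Ω) (hΩc : Convex ℝ Ω) {h : ℂ → ℂ} (hh : DifferentiableOn ℂ h Ω)
    {ρ : ℝ} (h1 : 1 ≤ ρ) (h2 : ρ < R) : av ρ (fun u => nf c g u * h (zf c g u)) = 0 := by
  obtain ⟨P, hP⟩ := hΩc.exists_forall_hasDerivWithinAt hh
  refine av_deriv (P := fun u => -P (zf c g u)) (by linarith) (fun u hu => ?_)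
    (H.eps_cont hΩ hh h1 h2)
  have hu0 : u ≠ 0 := fun h => by simp [h] at hu; linarith
  have hu' : u ∈ ball (0 : ℂ) R := mem_ball_zero_iff.2 (hu ▸ h2)
  have hz := H.inn u (hu ▸ h1) (hu ▸ h2)
  have h3 := (((hP _ hz).hasDerivAt (hΩ.mem_nhds hz)).comp u
    (hasDerivAt_zf (c := c) hu0 (H.hg.differentiableAt (isOpen_ball.mem_nhds hu')))).fun_neg
  have e : nf c g u * h (zf c g u) / u = -(h (zf c g u) * (-nf c g u / u)) := by ring
  rw [e]
  exact h3

theorem av_wind {u : ℂ} (hu : ‖u‖ = 1) {ρ : ℝ} (h1 : 1 < ρ) (h2 : ρ < R) :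
    av ρ (fun v => nf c g v / (zf c g v - zf c g u)) = 0 := by
  have hρ : 0 < ρ := by linarith
  have hu0 : u ≠ 0 := fun h => by simp [h] at hu
  have hne : ∀ v ∈ sphere (0 : ℂ) ρ, v - u ≠ 0 := by
    intro v hv h
    rw [sub_eq_zero.1 h, mem_sphere_zero_iff_norm] at hv
    linarith
  have e : av ρ (fun v => nf c g v / (zf c g v - zf c g u)) =
      av ρ (fun v => (1 - v / (v - u) * 1) + kap c g v u) := by
    refine av_congr hρ fun v hv => ?_
    have hvu := hne v (mem_sphere_zero_iff_norm.2 hv)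
    have huv : u - v ≠ 0 := fun h => hvu (by linear_combination -h)
    rw [H.kap_eq (mem_ball_zero_iff.2 (hv ▸ h2)) (H.mem1 hu)
      (fun h => by simp [h] at hv; linarith) hu0 (sub_ne_zero.1 hvu)]
    congr 1
    field_simp; ring
  have hc1 : ContinuousOn (fun v : ℂ => v / (v - u) * 1) (sphere 0 ρ) :=
    (continuousOn_id.div (by fun_prop) hne).mul continuousOn_const
  rw [e, av_add hρ (continuousOn_const.fun_sub hc1)
    ((H.kap_diff_left (H.mem1 hu)).continuousOn.mono (sph h2)),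
    av_sub hρ continuousOn_const hc1, av_const,
    av_cauchy (f := fun _ => 1) hρ h2 (differentiableOn_const _) (hu ▸ h1),
    av_hol hρ h2 (H.kap_diff_left (H.mem1 hu)), kap_zero_left]
  simp

theorem av_cauchy_out (hΩ : IsOpen Ω) (hΩc : Convex ℝ Ω) {h : ℂ → ℂ}
    (hh : DifferentiableOn ℂ h Ω) {u : ℂ} (hu : ‖u‖ = 1) {ρ : ℝ} (h1 : 1 < ρ) (h2 : ρ < R) :
    av ρ (fun v => nf c g v * h (zf c g v) * (v / (v - u) + kap c g u v)) = 0 := by
  have hρ : 0 < ρ := by linarith
  have hu0 : u ≠ 0 := fun h => by simp [h] at hu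
  have hz := H.inn u hu.ge (hu ▸ H.hR)
  have hd : DifferentiableOn ℂ (dslope h (zf c g u)) Ω :=
    (differentiableOn_dslope (hΩ.mem_nhds hz)).2 hh
  have hv' : ∀ v : ℂ, ‖v‖ = ρ → v ∈ ball (0 : ℂ) R ∧ v ≠ 0 ∧ u ≠ v := fun v hv =>
    ⟨mem_ball_zero_iff.2 (hv ▸ h2), fun h => by simp [h] at hv; linarith,
      fun h => by rw [← h] at hv; linarith⟩
  have e : av ρ (fun v => nf c g v * h (zf c g v) * (v / (v - u) + kap c g u v)) =
      av ρ (fun v => (-nf c g u * h (zf c g u)) * (nf c g v / (zf c g v - zf c g u)) +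
        (-nf c g u) * (nf c g v * dslope h (zf c g u) (zf c g v))) := by
    refine av_congr hρ fun v hv => ?_
    obtain ⟨hv1, hv0, huv⟩ := hv' v hv
    rw [← H.kap_eq (H.mem1 hu) hv1 hu0 hv0 huv]
    have h3 := H.zf_ne (H.mem1 hu) hv1 hu0 hv0 huv
    have h4 : zf c g v - zf c g u ≠ 0 := fun h => h3 (by linear_combination -h)
    have h5 := sub_smul_dslope h (zf c g u) (zf c g v)
    rw [smul_eq_mul] at h5
    have h6 : h (zf c g v) =
        h (zf c g u) + (zf c g v - zf c g u) * dslope h (zf c g u) (zf c g v) := by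
      linear_combination -h5
    rw [h6]
    field_simp
    ring
  have hc1 : ContinuousOn (fun v => nf c g v / (zf c g v - zf c g u)) (sphere 0 ρ) := by
    intro v hv
    obtain ⟨hv1, hv0, huv⟩ := hv' v (mem_sphere_zero_iff_norm.1 hv)
    exact ((H.nf_diff hv1 hv0).continuousAt.div
      ((H.zf_diff hv1 hv0).continuousAt.sub continuousAt_const)
      (H.zf_ne hv1 (H.mem1 hu) hv0 hu0 huv.symm)).continuousWithinAt
  rw [e, av_add hρ (continuousOn_const.fun_mul hc1)
    (continuousOn_const.fun_mul (H.eps_cont hΩ hd h1.le h2)), av_const_mul, av_const_mul,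
    H.av_wind hu h1 h2, H.av_eps hΩ hΩc hd h1.le h2]
  simp

theorem kap_cont' {ρ ρ' : ℝ} (h : ρ < R) (h' : ρ' < R) :
    ContinuousOn (fun p : ℂ × ℂ => kap c g p.1 p.2) (sphere 0 ρ ×ˢ sphere 0 ρ') :=
  H.kap_cont.mono (prod_mono (sph h) (sph h'))

/-- Orthogonality of `n h(z)` to the Faber transform of `conj p`. -/
theorem orth (hΩ : IsOpen Ω) (hΩc : Convex ℝ Ω) {h : ℂ → ℂ} (hh : DifferentiableOn ℂ h Ω)
    {p : ℂ → ℂ} (hp : DifferentiableOn ℂ p (ball 0 R)) :
    av 1 (fun v => nf c g v * h (zf c g v) * conj (p v)) +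
      av 1 (fun v => nf c g v * h (zf c g v) * av 1 fun u => kap c g u v * conj (p u)) = 0 := by
  obtain ⟨ρ, h1, h2⟩ := exists_between H.hR
  have hρ : 0 < ρ := by linarith
  set ε : ℂ → ℂ := fun v => nf c g v * h (zf c g v) with hε
  have hε1 : ContinuousOn ε (sphere 0 1) := H.eps_cont hΩ hh le_rfl H.hR
  have hερ : ContinuousOn ε (sphere 0 ρ) := H.eps_cont hΩ hh h1.le h2
  have hp1 : ContinuousOn p (sphere 0 1) := hp.continuousOn.mono (sph H.hR)
  have hne : ∀ u ∈ sphere (0 : ℂ) 1, ∀ v ∈ sphere (0 : ℂ) ρ, v - u ≠ 0 := by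
    intro u hu v hv h
    rw [sub_eq_zero.1 h, mem_sphere_zero_iff_norm] at hv
    rw [mem_sphere_zero_iff_norm] at hu
    linarith
  have cA : ContinuousOn (uncurry fun u v : ℂ => conj (p u) * (ε v * (v / (v - u))))
      (sphere 0 1 ×ˢ sphere 0 ρ) :=
    (continuous_conj.comp_continuousOn (hp1.comp continuousOn_fst fun _ hx => hx.1)).mul
      ((hερ.comp continuousOn_snd fun _ hx => hx.2).mul
        (continuousOn_snd.div (continuousOn_snd.sub continuousOn_fst)
          fun x hx => hne _ hx.1 _ hx.2))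
  have cB : ContinuousOn (uncurry fun u v : ℂ => conj (p u) * (ε v * kap c g u v))
      (sphere 0 1 ×ˢ sphere 0 1) :=
    (continuous_conj.comp_continuousOn (hp1.comp continuousOn_fst fun _ hx => hx.1)).mul
      ((hε1.comp continuousOn_snd fun _ hx => hx.2).mul (H.kap_cont' H.hR H.hR))
  have e0 : ∀ u : ℂ, ‖u‖ = 1 → av ρ (fun v => conj (p u) * (ε v * (v / (v - u)))) +
      av 1 (fun v => conj (p u) * (ε v * kap c g u v)) = 0 := by
    intro u hu
    have h3 := H.av_cauchy_out hΩ hΩc hh hu h1 h2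
    have h4 : av ρ (fun v => ε v * kap c g u v) = av 1 (fun v => ε v * kap c g u v) := by
      refine av_annulus one_pos h1.le fun z hz1 hz2 => ?_
      exact (H.eps_diff hΩ hh hz1 (hz2.trans_lt h2)).mul
        ((H.kap_diff_right (H.mem1 hu)).differentiableAt
          (isOpen_ball.mem_nhds (mem_ball_zero_iff.2 (hz2.trans_lt h2))))
    rw [av_const_mul, av_const_mul, ← h4, ← mul_add, ← av_add hρ]
    · have : av ρ (fun v => ε v * (v / (v - u)) + ε v * kap c g u v) = 0 := by
        rw [← h3]; congr 1; ext v; simp only [hε]; ring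
      rw [this, mul_zero]
    · exact hερ.mul (continuousOn_id.div (by fun_prop) (hne u (mem_sphere_zero_iff_norm.2 hu)))
    · exact hερ.mul ((H.kap_diff_right (H.mem1 hu)).continuousOn.mono (sph h2))
  have e1 : av 1 (fun u => av ρ (fun v => conj (p u) * (ε v * (v / (v - u))))) +
      av 1 (fun u => av 1 (fun v => conj (p u) * (ε v * kap c g u v))) = 0 := by
    rw [← av_add one_pos (av_cont hρ cA) (av_cont one_pos cB), av_congr one_pos e0, av_const]
  rw [av_swap one_pos hρ cA, av_swap one_pos one_pos cB] at e1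
  rw [← e1]
  congr 1
  · have e2 : av ρ (fun v => av 1 fun u => conj (p u) * (ε v * (v / (v - u)))) =
        av ρ (fun v => ε v * conj (p (conj v⁻¹))) := by
      refine av_congr hρ fun v hv => ?_
      have hv0 : v ≠ 0 := fun h => by simp [h] at hv; linarith
      have hlt : ‖conj v⁻¹‖ < 1 := by
        rw [norm_conj, norm_inv, hv]; exact inv_lt_one_of_one_lt₀ h1
      have hne' : ∀ u ∈ sphere (0 : ℂ) 1, u - conj v⁻¹ ≠ 0 := by
        intro u hu h
        rw [sub_eq_zero.1 h, mem_sphere_zero_iff_norm] at hu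
        linarith
      have hc : ContinuousOn (fun z => z / (z - conj v⁻¹) * p z) (sphere 0 1) :=
        (continuousOn_id.div (by fun_prop) hne').mul hp1
      rw [← av_cauchy one_pos H.hR hp hlt, ← av_conj one_pos hc, ← av_const_mul]
      refine av_congr one_pos fun u hu => ?_
      have hu0 : u ≠ 0 := fun h => by simp [h] at hu
      have h5 : conj u = u⁻¹ := (inv_eq_conj hu).symm
      have h6 := hne u (mem_sphere_zero_iff_norm.2 hu) v (mem_sphere_zero_iff_norm.2 hv)
      simp only [map_mul, map_div₀, map_sub, conj_conj, h5]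
      have h7 : u⁻¹ - v⁻¹ = (v - u) / (u * v) := by field_simp
      rw [h7]
      field_simp
    have e3 : av ρ (fun v => ε v * conj (p (conj v⁻¹))) =
        av 1 (fun v => ε v * conj (p (conj v⁻¹))) := by
      refine av_annulus one_pos h1.le fun z hz1 hz2 => ?_
      refine (H.eps_diff hΩ hh hz1 (hz2.trans_lt h2)).mul ?_
      have hz0 : z ≠ 0 := fun h => by simp [h] at hz1; linarith
      have hm : conj z⁻¹ ∈ ball (0 : ℂ) R := by
        rw [mem_ball_zero_iff, norm_conj, norm_inv]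
        exact (inv_le_one_of_one_le₀ hz1).trans_lt H.hR
      have h5 : DifferentiableAt ℂ (conj ∘ p ∘ conj) (conj (conj z⁻¹)) :=
        (hp.differentiableAt (isOpen_ball.mem_nhds hm)).conj_conj
      rw [conj_conj] at h5
      exact h5.comp z (differentiableAt_inv hz0)
    rw [e2, e3]
    refine av_congr one_pos fun v hv => ?_
    rw [inv_eq_conj hv, conj_conj]
  · congr 1; ext v
    rw [← av_const_mul]
    congr 1; ext u; simp only [hε]; ring

/-- The key inequality. -/
theorem key (hΩ : IsOpen Ω) (hΩc : Convex ℝ Ω) {h : ℂ → ℂ} (hh : DifferentiableOn ℂ h Ω)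
    {p : ℂ → ℂ} (hp : DifferentiableOn ℂ p (ball 0 R)) :
    msq p + ‖p 0‖ ^ 2 ≤ 2 * msq (fun u => p u + nf c g u * h (zf c g u)) := by
  set ε : ℂ → ℂ := fun v => nf c g v * h (zf c g v) with hε
  have hε1 : ContinuousOn ε (sphere 0 1) := H.eps_cont hΩ hh le_rfl H.hR
  have hp1 : ContinuousOn p (sphere 0 1) := hp.continuousOn.mono (sph H.hR)
  have hk := H.kap_cont' H.hR H.hR
  have hkl : ∀ v : ℂ, ‖v‖ = 1 → ContinuousOn (fun u => kap c g u v) (sphere 0 1) := fun v hv =>
    (H.kap_diff_left (H.mem1 hv)).continuousOn.mono (sph H.hR)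
  set J : ℂ → ℂ := fun v => av 1 fun u => kap c g u v * conj (p u) with hJ
  have cJ' : ContinuousOn (uncurry fun v u : ℂ => kap c g u v * conj (p u))
      (sphere 0 1 ×ˢ sphere 0 1) :=
    (hk.comp continuous_swap.continuousOn fun _ hx => ⟨hx.2, hx.1⟩).mul
      (continuous_conj.comp_continuousOn (hp1.comp continuousOn_snd fun _ hx => hx.2))
  have cJ : ContinuousOn J (sphere 0 1) := av_cont one_pos cJ'
  set K : ℂ → ℂ := fun v => conj (p 0) + J v with hK
  have cK : ContinuousOn K (sphere 0 1) := continuousOn_const.add cJ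
  have hp0 : av 1 p = p 0 := av_hol one_pos H.hR hp
  -- `K` is the Markov average of `conj p`
  have hKeq : ∀ v : ℂ, ‖v‖ = 1 →
      av 1 (fun u => ((1 + 2 * (kap c g u v).re : ℝ) : ℂ) * conj (p u)) = K v := by
    intro v hv
    have h1 : av 1 (fun u => kap c g u v * p u) = 0 := by
      rw [av_hol one_pos H.hR ((H.kap_diff_left (H.mem1 hv)).fun_mul hp)]
      simp [kap_zero_left]
    have hc := hkl v hv
    have h2 : av 1 (fun u => ((1 + 2 * (kap c g u v).re : ℝ) : ℂ) * conj (p u)) =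
        av 1 (fun u => (conj (p u) + kap c g u v * conj (p u)) + conj (kap c g u v * p u)) := by
      congr 1; ext u
      have := add_conj (kap c g u v)
      push_cast at this ⊢
      rw [map_mul, ← this]; ring
    rw [h2, av_add one_pos, av_add one_pos, av_conj one_pos hp1, av_conj one_pos, h1, hp0]
    · simp [hK, hJ]
    all_goals fun_prop
  have hk1 : ∀ v : ℂ, ‖v‖ = 1 → av 1 (fun u => 1 + 2 * (kap c g u v).re) = 1 := by
    intro v hv
    have hc := hkl v hv
    rw [av_add one_pos, av_const, av_const_mul_real, av_re one_pos hc,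
      av_hol one_pos H.hR (H.kap_diff_left (H.mem1 hv)), kap_zero_left]
    · simp
    all_goals fun_prop
  have hk2 : ∀ u : ℂ, ‖u‖ = 1 → av 1 (fun v => 1 + 2 * (kap c g u v).re) = 1 := by
    intro u hu
    have hc : ContinuousOn (kap c g u) (sphere 0 1) :=
      (H.kap_diff_right (H.mem1 hu)).continuousOn.mono (sph H.hR)
    rw [av_add one_pos, av_const, av_const_mul_real, av_re one_pos hc,
      av_hol one_pos H.hR (H.kap_diff_right (H.mem1 hu)), kap_zero_right]
    · simp
    all_goals fun_prop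
  have hjen : ∀ v : ℂ, ‖v‖ = 1 →
      ‖K v‖ ^ 2 ≤ av 1 (fun u => (1 + 2 * (kap c g u v).re) * ‖p u‖ ^ 2) := by
    intro v hv
    have hc := hkl v hv
    have h1 : 0 ≤ av 1 (fun u => (1 + 2 * (kap c g u v).re) * ‖conj (p u) - K v‖ ^ 2) :=
      av_nonneg one_pos fun u hu => mul_nonneg (H.k_nonneg hu hv) (sq_nonneg _)
    have h2 : av 1 (fun u => (1 + 2 * (kap c g u v).re) * ‖conj (p u) - K v‖ ^ 2) =
        av 1 (fun u => ((1 + 2 * (kap c g u v).re) * ‖p u‖ ^ 2 +
          ‖K v‖ ^ 2 * (1 + 2 * (kap c g u v).re)) -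
          2 * (((1 + 2 * (kap c g u v).re : ℝ) : ℂ) * conj (p u) * conj (K v)).re) := by
      congr 1; ext u
      rw [mul_assoc, re_ofReal_mul]
      simp only [← normSq_eq_norm_sq, normSq_sub, normSq_conj]
      ring
    rw [h2, av_sub one_pos, av_add one_pos, av_const_mul_real, av_const_mul_real, av_re one_pos,
      av_mul_const, hKeq v hv, hk1 v hv, mul_conj'] at h1
    · have : ((‖K v‖ : ℂ) ^ 2).re = ‖K v‖ ^ 2 := by norm_cast
      rw [this] at h1
      linarith
    all_goals fun_prop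
  have cP : ContinuousOn (uncurry fun v u : ℂ => (1 + 2 * (kap c g u v).re) * ‖p u‖ ^ 2)
      (sphere 0 1 ×ˢ sphere 0 1) :=
    (continuousOn_const.add (continuousOn_const.mul (continuous_re.comp_continuousOn
      (hk.comp continuous_swap.continuousOn fun _ hx => ⟨hx.2, hx.1⟩)))).mul
      ((hp1.comp continuousOn_snd fun _ hx => hx.2).norm.pow 2)
  have hKle : msq K ≤ msq p := by
    calc msq K ≤ av 1 (fun v => av 1 (fun u => (1 + 2 * (kap c g u v).re) * ‖p u‖ ^ 2)) :=
          av_mono one_pos (by fun_prop) (av_cont one_pos cP) hjen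
      _ = av 1 (fun u => av 1 (fun v => (1 + 2 * (kap c g u v).re) * ‖p u‖ ^ 2)) :=
          av_swap one_pos one_pos cP
      _ = msq p := by
          refine av_congr one_pos fun u hu => ?_
          simp_rw [mul_comm _ (‖p u‖ ^ 2)]
          rw [av_const_mul_real, hk2 u hu, mul_one]
  have hpJ : av 1 (fun v => p v * J v) = 0 := by
    have c1 : ContinuousOn (uncurry fun v u : ℂ => p v * (kap c g u v * conj (p u)))
        (sphere 0 1 ×ˢ sphere 0 1) := (hp1.comp continuousOn_fst fun _ hx => hx.1).mul cJ'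
    simp only [hJ, ← av_const_mul]
    rw [av_swap one_pos one_pos c1, ← av_const (ρ := 1) (0 : ℂ)]
    refine av_congr one_pos fun u hu => ?_
    rw [av_hol one_pos H.hR (hp.fun_mul ((H.kap_diff_right (H.mem1 hu)).mul_const _))]
    simp [kap_zero_right]
  have hpK : av 1 (fun v => p v * K v) = (‖p 0‖ ^ 2 : ℝ) := by
    simp only [hK, mul_add]
    rw [av_add one_pos, hpJ, av_mul_const, hp0, mul_conj']
    · simp
    all_goals fun_prop
  have hεΘ : av 1 (fun v => ε v * (conj (p v) + K v)) = 0 := by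
    have h1 := H.orth hΩ hΩc hh hp
    have h2 := H.av_eps hΩ hΩc hh le_rfl H.hR
    simp only [hK, mul_add]
    rw [av_add one_pos, av_add one_pos, av_mul_const, h2, zero_mul, zero_add]
    · exact h1
    all_goals fun_prop
  have hΘ : msq (fun v => K v + conj (p v)) ≤ 2 * (msq p + ‖p 0‖ ^ 2) := by
    rw [msq_add cK hp1]
    simp_rw [mul_comm (K _) (p _)]
    rw [hpK, ofReal_re]
    linarith
  have hψΘ : av 1 (fun v => (p v + ε v) * (K v + conj (p v))) = (msq p + ‖p 0‖ ^ 2 : ℝ) := by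
    have : (fun v => (p v + ε v) * (K v + conj (p v))) =
        fun v => (p v * conj (p v) + p v * K v) + ε v * (conj (p v) + K v) := by
      ext v; ring
    rw [this, av_add one_pos, av_add one_pos, msq_eq hp1, hpK, hεΘ]
    · push_cast; ring
    all_goals fun_prop
  have hfin := msq_nonneg fun v => 2 * (p v + ε v) + conj (-1 * (K v + conj (p v)))
  rw [msq_add (by fun_prop) (by fun_prop), msq_const_mul, msq_const_mul] at hfin
  have e : (fun u => 2 * (p u + ε u) * (-1 * (K u + conj (p u)))) =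
      fun u => -2 * ((p u + ε u) * (K u + conj (p u))) := by ext u; ring
  rw [e, av_const_mul, hψΘ] at hfin
  have e2 : (-2 * ((msq p + ‖p 0‖ ^ 2 : ℝ) : ℂ)).re = -2 * (msq p + ‖p 0‖ ^ 2) := by
    norm_cast
  rw [e2] at hfin
  simp only [Complex.norm_ofNat, norm_neg, norm_one] at hfin
  change msq p + ‖p 0‖ ^ 2 ≤ 2 * msq (fun u => p u + ε u)
  linarith

end IsExt

end Crest.Agent.R132
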