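import Mathlib
import Crest.Agent.R132.Kernel

/-! The `L²` argument bounding singular values of `Φ[A]` by `2 sup ‖Φ‖`. -/

open Set Filter Metric Function Complex Real
open scoped Topology ComplexConjugate ComplexOrder InnerProductSpace Matrix

namespace Crest.Agent.R132

theorem schur_block {ι : Type*} [Fintype ι] {M : Matrix (ι ⊕ ι) (ι ⊕ ι) ℂ} (hM : M.PosSemidef) :
    2 * ∑ i, ∑ j, ‖M (.inr i) (.inl j)‖ ^ 2 ≤
      ∑ i, ∑ j, ‖M (.inl i) (.inl j)‖ ^ 2 + ∑ i, ∑ j, ‖M (.inr i) (.inr j)‖ ^ 2 := by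
  have h1 := (hM.hadamard hM.transpose).dotProduct_mulVec_nonneg (Sum.elim 1 (-1))
  have h2 : ∀ a b, M a b * M b a = ((‖M a b‖ ^ 2 : ℝ) : ℂ) := by
    intro a b
    rw [← hM.isHermitian.apply b a, star_def, mul_conj']; push_cast; rfl
  have h3 : ∀ a b, ‖M a b‖ = ‖M b a‖ := by
    intro a b
    rw [← hM.isHermitian.apply b a, norm_star]
  have h4 := (Complex.nonneg_iff.1 h1).1
  simp only [dotProduct, Matrix.mulVec, Fintype.sum_sum_type, Matrix.hadamard_apply,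
    Matrix.transpose_apply, h2, Pi.star_apply, Sum.elim_inl, Sum.elim_inr, Pi.one_apply,
    Pi.neg_apply, star_one, star_neg, mul_one, one_mul, mul_neg, neg_mul, Finset.sum_neg_distrib,
    add_re, neg_re, re_sum, ofReal_re, Finset.sum_add_distrib] at h4
  have h5 : ∑ i, ∑ j, ‖M (.inl i) (.inr j)‖ ^ 2 = ∑ i, ∑ j, ‖M (.inr i) (.inl j)‖ ^ 2 := by
    rw [Finset.sum_comm]
    simp only [h3 (.inl _) (.inr _)]
  linarith

theorem sum_mulVec_le {ι : Type*} [Fintype ι] [DecidableEq ι] {Φ : Matrix ι ι ℂ} {M : ℝ}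
    (h : ‖Matrix.toEuclideanCLM (n := ι) (𝕜 := ℂ) Φ‖ ≤ M) (x : ι → ℂ) :
    ∑ i, ‖∑ j, Φ i j * x j‖ ^ 2 ≤ M ^ 2 * ∑ j, ‖x j‖ ^ 2 := by
  have h1 := (Matrix.toEuclideanCLM (n := ι) (𝕜 := ℂ) Φ).le_of_opNorm_le h (WithLp.toLp 2 x)
  have h2 := pow_le_pow_left₀ (norm_nonneg _) h1 2
  rw [mul_pow, Matrix.toEuclideanCLM_toLp, EuclideanSpace.norm_sq_eq,
    EuclideanSpace.norm_sq_eq] at h2
  exact h2

theorem sum_vecMul_le {ι : Type*} [Fintype ι] [DecidableEq ι] {Φ : Matrix ι ι ℂ} {M : ℝ}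
    (h : ‖Matrix.toEuclideanCLM (n := ι) (𝕜 := ℂ) Φ‖ ≤ M) (x : ι → ℂ) :
    ∑ j, ‖∑ i, Φ i j * x i‖ ^ 2 ≤ M ^ 2 * ∑ j, ‖x j‖ ^ 2 := by
  have h' : ‖Matrix.toEuclideanCLM (n := ι) (𝕜 := ℂ) (star Φ)‖ ≤ M := by
    rw [map_star, ContinuousLinearMap.star_eq_adjoint, LinearIsometryEquiv.norm_map]
    exact h
  have h1 := sum_mulVec_le h' (fun i => conj (x i))
  simp only [Matrix.star_apply, star_def, ← map_mul, ← map_sum, norm_conj] at h1
  exact h1

variable {E : Type*} [NormedAddCommGroup E] [InnerProductSpace ℂ E] [CompleteSpace E]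

/-- The resolvent. -/
noncomputable def res (A : E →L[ℂ] E) (z : ℂ) : E →L[ℂ] E := Ring.inverse (z • 1 - A)

/-- The Carathéodory function `n (z - A)⁻¹` in the variable `u`. -/
noncomputable def cop (c : ℂ) (g : ℂ → ℂ) (A : E →L[ℂ] E) (u : ℂ) : E →L[ℂ] E :=
  (c - u ^ 2 * deriv g u) • Ring.inverse ((c + u * g u) • 1 - u • A)

section

variable {W Ω : Set ℂ} {R : ℝ} {c : ℂ} {g : ℂ → ℂ} {A : E →L[ℂ] E}

omit [CompleteSpace E] in
theorem cop_den {u : ℂ} (hu : u ≠ 0) :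
    (c + u * g u) • (1 : E →L[ℂ] E) - u • A = u • (zf c g u • 1 - A) := by
  rw [smul_sub, smul_smul, zf]
  congr 2
  field_simp

omit [CompleteSpace E] in
theorem inverse_smul {u : ℂ} (hu : u ≠ 0) {B : E →L[ℂ] E} (hB : IsUnit B) :
    IsUnit (u • B) ∧ Ring.inverse (u • B) = u⁻¹ • Ring.inverse B := by
  have h1 : (u • B) * (u⁻¹ • Ring.inverse B) = 1 := by
    rw [smul_mul_smul_comm, mul_inv_cancel₀ hu, Ring.mul_inverse_cancel _ hB, one_smul]
  have h2 : (u⁻¹ • Ring.inverse B) * (u • B) = 1 := by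
    rw [smul_mul_smul_comm, inv_mul_cancel₀ hu, Ring.inverse_mul_cancel _ hB, one_smul]
  have h3 : IsUnit (u • B) := ⟨⟨_, _, h1, h2⟩, rfl⟩
  refine ⟨h3, ?_⟩
  rw [← mul_one (Ring.inverse (u • B)), ← h1, ← mul_assoc, Ring.inverse_mul_cancel _ h3, one_mul]

omit [CompleteSpace E] in
theorem cop_eq (hres : ∀ z ∉ W, IsUnit (z • (1 : E →L[ℂ] E) - A)) {u : ℂ} (hu : u ≠ 0)
    (hz : zf c g u ∉ W) : cop c g A u = nf c g u • res A (zf c g u) := by
  rw [cop, cop_den hu, (inverse_smul hu (hres _ hz)).2, smul_smul, res, nf]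
  congr 1
  field_simp

omit [CompleteSpace E] in
theorem cop_zero (hc : c ≠ 0) : cop c g A 0 = 1 := by
  have := (inverse_smul hc (isUnit_one (M := E →L[ℂ] E))).2
  simp only [cop, ne_eq, OfNat.ofNat_ne_zero, not_false_eq_true, zero_pow, zero_mul, sub_zero,
    add_zero, zero_smul, this, Ring.inverse_one, smul_smul, mul_inv_cancel₀ hc, one_smul]

theorem cop_diff (H : IsExt W Ω R c g) (hres : ∀ z ∉ W, IsUnit (z • (1 : E →L[ℂ] E) - A)) :
    DifferentiableOn ℂ (cop c g A) (ball 0 R) := by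
  intro u hu
  have hg1 : DifferentiableAt ℂ g u := H.hg.differentiableAt (isOpen_ball.mem_nhds hu)
  have hg2 : DifferentiableAt ℂ (deriv g) u :=
    (H.hg.deriv isOpen_ball).differentiableAt (isOpen_ball.mem_nhds hu)
  have hunit : IsUnit ((c + u * g u) • (1 : E →L[ℂ] E) - u • A) := by
    by_cases hu0 : u = 0
    · subst hu0
      simpa using (inverse_smul H.hc (isUnit_one (M := E →L[ℂ] E))).1
    · rw [cop_den hu0]
      exact (inverse_smul hu0 (hres _ (H.out u hu hu0))).1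
  have h1 : DifferentiableAt ℂ (fun u => (c + u * g u) • (1 : E →L[ℂ] E) - u • A) u := by
    fun_prop
  have h2 := h1.inverse hunit
  refine DifferentiableAt.differentiableWithinAt ?_
  unfold cop
  have h3 : DifferentiableAt ℂ (fun u => c - u ^ 2 * deriv g u) u := by fun_prop
  exact h3.smul h2

omit [CompleteSpace E] in
theorem cop_pos (H : IsExt W Ω R c g) (hW : ∀ x : E, ‖x‖ = 1 → ⟪x, A x⟫_ℂ ∈ W)
    (hres : ∀ z ∉ W, IsUnit (z • (1 : E →L[ℂ] E) - A)) {u : ℂ} (hu : ‖u‖ = 1) (x : E) :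
    0 ≤ (⟪x, cop c g A u x⟫_ℂ).re := by
  have hu0 : u ≠ 0 := fun h => by simp [h] at hu
  have hz := H.out u (H.mem1 hu) hu0
  rw [cop_eq hres hu0 hz]
  set z := zf c g u
  set y := res A z x with hy
  have hx : x = z • y - A y := by
    have := congrArg (fun B : E →L[ℂ] E => B x) (Ring.mul_inverse_cancel _ (hres z hz))
    simpa [hy, res] using this.symm
  rw [smul_apply, ← hy]
  by_cases hy0 : y = 0
  · simp [hy0]
  have hn : (‖y‖ : ℂ) ≠ 0 := by exact_mod_cast norm_ne_zero_iff.2 hy0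
  have h1 := H.star u hu _ (hW ((‖y‖ : ℂ)⁻¹ • y) (by
    rw [norm_smul, norm_inv, norm_real, norm_norm, inv_mul_cancel₀ (norm_ne_zero_iff.2 hy0)]))
  have e : ⟪x, nf c g u • y⟫_ℂ = ((‖y‖ ^ 2 : ℝ) : ℂ) *
      conj ((z - ⟪(‖y‖ : ℂ)⁻¹ • y, A ((‖y‖ : ℂ)⁻¹ • y)⟫_ℂ) * conj (nf c g u)) := by
    rw [hx]
    simp only [inner_smul_right, inner_sub_left, inner_smul_left, map_smul, map_mul, map_sub,
      inner_conj_symm, conj_conj, map_inv₀, conj_ofReal, inner_self_eq_norm_sq_to_K]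
    push_cast
    have : (RCLike.ofReal ‖y‖ : ℂ) = (‖y‖ : ℂ) := rfl
    rw [this]
    field_simp
  rw [e, re_ofReal_mul, conj_re]
  exact mul_nonneg (sq_nonneg _) h1

omit [CompleteSpace E] in
theorem gram_psd {κ : Type*} [Fintype κ] {C : E →L[ℂ] E} (hC : ∀ x, 0 ≤ (⟪x, C x⟫_ℂ).re)
    (ω : κ → E) :
    (Matrix.of fun a b => ⟪ω a, C (ω b)⟫_ℂ + conj ⟪ω b, C (ω a)⟫_ℂ).PosSemidef := by
  refine Matrix.PosSemidef.of_dotProduct_mulVec_nonneg ?_ fun x => ?_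
  · ext a b
    simp only [Matrix.conjTranspose_apply, Matrix.of_apply, star_def, map_add, conj_conj]
    ring
  · have e : star x ⬝ᵥ (Matrix.of fun a b => ⟪ω a, C (ω b)⟫_ℂ + conj ⟪ω b, C (ω a)⟫_ℂ) *ᵥ x =
        ⟪∑ a, x a • ω a, C (∑ a, x a • ω a)⟫_ℂ + conj ⟪∑ a, x a • ω a, C (∑ a, x a • ω a)⟫_ℂ := by
      simp only [dotProduct, Matrix.mulVec, Matrix.of_apply, Pi.star_apply, star_def, map_sum,
        map_smul, sum_inner, inner_sum, inner_smul_left, inner_smul_right, map_mul, conj_conj,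
        Finset.mul_sum, add_mul, mul_add, Finset.sum_add_distrib]
      congr 1
      · rw [Finset.sum_comm]
        exact Finset.sum_congr rfl fun _ _ => Finset.sum_congr rfl fun _ _ => by ring
      · exact Finset.sum_congr rfl fun _ _ => Finset.sum_congr rfl fun _ _ => by ring
    rw [e, add_conj]
    exact Complex.zero_le_real.2 (mul_nonneg zero_le_two (hC _))

theorem msq_sum {ι : Type*} [Fintype ι] {F : ι → ι → ℂ → ℂ}
    (hF : ∀ i j, ContinuousOn (F i j) (sphere 0 1)) :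
    ∑ i, ∑ j, msq (F i j) = av 1 fun u => ∑ i, ∑ j, ‖F i j u‖ ^ 2 := by
  rw [av_sum _ one_pos]
  · refine Finset.sum_congr rfl fun i _ => ?_
    rw [av_sum _ one_pos]
    · rfl
    · intro j _; have := hF i j; fun_prop
  · intro i _
    refine continuousOn_finsetSum _ fun j _ => ?_
    have := hF i j; fun_prop

/-- The main estimate for a singular pair. -/
theorem core_vec {ι : Type*} [Fintype ι] [DecidableEq ι] (H : IsExt W Ω R c g) (hΩ : IsOpen Ω)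
    (hΩc : Convex ℝ Ω) (hW : ∀ x : E, ‖x‖ = 1 → ⟪x, A x⟫_ℂ ∈ W)
    (hres : ∀ z ∉ W, IsUnit (z • (1 : E →L[ℂ] E) - A)) {Φ : ℂ → Matrix ι ι ℂ} {M κ : ℝ}
    (hM : ∀ z ∈ Ω, ‖Matrix.toEuclideanCLM (n := ι) (𝕜 := ℂ) (Φ z)‖ ≤ M) (hκ : 0 < κ)
    {η ξ : ι → E}
    (h1 : ∀ k i, ∃ h, DifferentiableOn ℂ h Ω ∧ ∀ z ∈ Ω, z ∉ W →
      κ * ⟪ξ k, res A z (ξ i)⟫_ℂ + h z = ∑ j, Φ z i j * ⟪ξ k, res A z (η j)⟫_ℂ)
    (h2 : ∀ j l, ∃ h, DifferentiableOn ℂ h Ω ∧ ∀ z ∈ Ω, z ∉ W →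
      κ * ⟪η j, res A z (η l)⟫_ℂ + h z = ∑ i, Φ z i j * ⟪ξ i, res A z (η l)⟫_ℂ)
    (hη : η ≠ 0) : κ ≤ 2 * M := by
  choose h₁ hh₁ he₁ using h1
  choose h₂ hh₂ he₂ using h2
  set P : E → E → ℂ → ℂ := fun x y u => ⟪x, cop c g A u y⟫_ℂ with hP
  have hPd : ∀ x y, DifferentiableOn ℂ (P x y) (ball 0 R) := fun x y =>
    (innerSL ℂ x).differentiable.comp_differentiableOn
      ((cop_diff H hres).clm_apply (differentiableOn_const y))
  have hPc : ∀ x y, ContinuousOn (P x y) (sphere 0 1) := fun x y =>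
    (hPd x y).continuousOn.mono (IsExt.sph H.hR)
  have hP0 : ∀ x y, P x y 0 = ⟪x, y⟫_ℂ := fun x y => by simp [hP, cop_zero H.hc]
  have hu' : ∀ u : ℂ, ‖u‖ = 1 → u ≠ 0 ∧ zf c g u ∈ Ω ∧ zf c g u ∉ W := fun u hu =>
    ⟨fun h => by simp [h] at hu, H.inn u hu.ge (hu ▸ H.hR),
      H.out u (H.mem1 hu) fun h => by simp [h] at hu⟩
  have hPe : ∀ x y u, ‖u‖ = 1 → P x y u = nf c g u * ⟪x, res A (zf c g u) y⟫_ℂ := by
    intro x y u hu
    simp [hP, cop_eq hres (hu' u hu).1 (hu' u hu).2.2]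
  have hM0 : 0 ≤ M := (norm_nonneg _).trans (hM _ (hu' 1 (by simp)).2.1)
  -- the symmetrised mean squares
  have hsym : ∀ x y, msq (fun u => P x y u + conj (P y x u)) =
      msq (P x y) + msq (P y x) + 2 * ‖⟪x, y⟫_ℂ‖ ^ 2 := by
    intro x y
    rw [msq_add (hPc x y) (hPc y x), av_hol one_pos H.hR ((hPd x y).fun_mul (hPd y x)), hP0, hP0,
      ← inner_conj_symm y x, mul_conj']
    norm_cast
  set Q : ℝ := ∑ i, ∑ j, msq (P (ξ i) (η j)) with hQ
  have hQ0 : 0 ≤ Q := Finset.sum_nonneg fun _ _ => Finset.sum_nonneg fun _ _ => msq_nonneg _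
  -- the key inequality, summed
  have hkey : ∀ (x y : E) (h : ℂ → ℂ), DifferentiableOn ℂ h Ω →
      κ ^ 2 * (msq (P x y) + ‖⟪x, y⟫_ℂ‖ ^ 2) ≤
        2 * msq (fun u => κ * P x y u + nf c g u * h (zf c g u)) := by
    intro x y h hh
    have := H.key hΩ hΩc hh ((hPd x y).const_mul (κ : ℂ))
    rw [msq_const_mul, hP0, norm_mul, norm_real, Real.norm_of_nonneg hκ.le] at this
    linarith
  have hcψ : ∀ (x y : E) (h : ℂ → ℂ), DifferentiableOn ℂ h Ω →
      ContinuousOn (fun u => κ * P x y u + nf c g u * h (zf c g u)) (sphere 0 1) :=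
    fun x y h hh => (continuousOn_const.mul (hPc x y)).add (H.eps_cont hΩ hh le_rfl H.hR)
  have hcQ : ContinuousOn (fun u => M ^ 2 * ∑ i, ∑ j, ‖P (ξ i) (η j) u‖ ^ 2) (sphere 0 1) := by
    refine continuousOn_const.mul (continuousOn_finsetSum _ fun i _ =>
      continuousOn_finsetSum _ fun j _ => ?_)
    have := hPc (ξ i) (η j); fun_prop
  have hcS : ∀ {F : ι → ι → ℂ → ℂ}, (∀ i j, ContinuousOn (F i j) (sphere 0 1)) →
      ContinuousOn (fun u => ∑ i, ∑ j, ‖F i j u‖ ^ 2) (sphere 0 1) := by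
    intro F hF
    refine continuousOn_finsetSum _ fun i _ => continuousOn_finsetSum _ fun j _ => ?_
    have := hF i j; fun_prop
  have hA : κ ^ 2 * ∑ k, ∑ i, (msq (P (ξ k) (ξ i)) + ‖⟪ξ k, ξ i⟫_ℂ‖ ^ 2) ≤ 2 * (M ^ 2 * Q) := by
    calc _ = ∑ k, ∑ i, κ ^ 2 * (msq (P (ξ k) (ξ i)) + ‖⟪ξ k, ξ i⟫_ℂ‖ ^ 2) := by
          simp only [Finset.mul_sum]
      _ ≤ ∑ k, ∑ i, 2 * msq (fun u => κ * P (ξ k) (ξ i) u + nf c g u * h₁ k i (zf c g u)) :=
          Finset.sum_le_sum fun k _ => Finset.sum_le_sum fun i _ => hkey _ _ _ (hh₁ k i)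
      _ = 2 * ∑ k, ∑ i, msq (fun u => κ * P (ξ k) (ξ i) u + nf c g u * h₁ k i (zf c g u)) := by
          simp only [Finset.mul_sum]
      _ ≤ 2 * (M ^ 2 * Q) := by
          gcongr
          rw [msq_sum fun k i => hcψ _ _ _ (hh₁ k i), hQ, msq_sum fun i j => hPc _ _,
            ← av_const_mul_real]
          refine av_mono one_pos (hcS fun k i => hcψ _ _ _ (hh₁ k i)) hcQ fun u hu => ?_
          rw [Finset.mul_sum]
          refine Finset.sum_le_sum fun k _ => ?_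
          refine le_trans (le_of_eq ?_) (sum_mulVec_le (hM _ (hu' u hu).2.1) _)
          refine Finset.sum_congr rfl fun i _ => ?_
          congr 2
          simp only [hPe _ _ u hu, mul_left_comm _ (nf c g u), ← Finset.mul_sum, ← mul_add]
          rw [he₁ k i _ (hu' u hu).2.1 (hu' u hu).2.2]
  have hB : κ ^ 2 * ∑ j, ∑ l, (msq (P (η j) (η l)) + ‖⟪η j, η l⟫_ℂ‖ ^ 2) ≤ 2 * (M ^ 2 * Q) := by
    calc _ = ∑ j, ∑ l, κ ^ 2 * (msq (P (η j) (η l)) + ‖⟪η j, η l⟫_ℂ‖ ^ 2) := by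
          simp only [Finset.mul_sum]
      _ ≤ ∑ j, ∑ l, 2 * msq (fun u => κ * P (η j) (η l) u + nf c g u * h₂ j l (zf c g u)) :=
          Finset.sum_le_sum fun k _ => Finset.sum_le_sum fun i _ => hkey _ _ _ (hh₂ k i)
      _ = 2 * ∑ j, ∑ l, msq (fun u => κ * P (η j) (η l) u + nf c g u * h₂ j l (zf c g u)) := by
          simp only [Finset.mul_sum]
      _ ≤ 2 * (M ^ 2 * Q) := by
          gcongr
          rw [msq_sum fun k i => hcψ _ _ _ (hh₂ k i), hQ, msq_sum fun i j => hPc _ _,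
            ← av_const_mul_real]
          refine av_mono one_pos (hcS fun k i => hcψ _ _ _ (hh₂ k i)) hcQ fun u hu => ?_
          rw [Finset.sum_comm, Finset.sum_comm (f := fun i j => ‖P (ξ i) (η j) u‖ ^ 2),
            Finset.mul_sum]
          refine Finset.sum_le_sum fun l _ => ?_
          refine le_trans (le_of_eq ?_) (sum_vecMul_le (hM _ (hu' u hu).2.1) _)
          refine Finset.sum_congr rfl fun j _ => ?_
          congr 2
          simp only [hPe _ _ u hu, mul_left_comm _ (nf c g u), ← Finset.mul_sum, ← mul_add]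
          rw [he₂ j l _ (hu' u hu).2.1 (hu' u hu).2.2]
  -- the Schur product inequality
  have hcs : ∀ x y, ContinuousOn (fun u => P x y u + conj (P y x u)) (sphere 0 1) := by
    intro x y
    have := hPc x y; have := hPc y x; fun_prop
  have hC : 2 * ∑ i, ∑ j, msq (fun u => P (ξ i) (η j) u + conj (P (η j) (ξ i) u)) ≤
      ∑ i, ∑ j, msq (fun u => P (η i) (η j) u + conj (P (η j) (η i) u)) +
        ∑ i, ∑ j, msq (fun u => P (ξ i) (ξ j) u + conj (P (ξ j) (ξ i) u)) := by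
    rw [msq_sum fun i j => hcs _ _, msq_sum fun i j => hcs _ _, msq_sum fun i j => hcs _ _,
      ← av_const_mul_real, ← av_add one_pos (hcS fun i j => hcs _ _) (hcS fun i j => hcs _ _)]
    refine av_mono one_pos (continuousOn_const.fun_mul (hcS fun i j => hcs _ _))
      ((hcS fun i j => hcs _ _).fun_add (hcS fun i j => hcs _ _)) fun u hu => ?_
    have := schur_block (gram_psd (cop_pos H hW hres hu) (Sum.elim η ξ))
    simp only [Matrix.of_apply, Sum.elim_inl, Sum.elim_inr] at this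
    exact this
  have hdiag : ∀ ω : ι → E, ∑ i, ∑ j, msq (fun u => P (ω i) (ω j) u + conj (P (ω j) (ω i) u)) =
      2 * ∑ i, ∑ j, (msq (P (ω i) (ω j)) + ‖⟪ω i, ω j⟫_ℂ‖ ^ 2) := by
    intro ω
    simp only [hsym, Finset.sum_add_distrib, ← Finset.mul_sum]
    rw [Finset.sum_comm (f := fun i j => msq (P (ω j) (ω i)))]
    ring
  have hoff : Q ≤ ∑ i, ∑ j, msq (fun u => P (ξ i) (η j) u + conj (P (η j) (ξ i) u)) := by
    refine Finset.sum_le_sum fun i _ => Finset.sum_le_sum fun j _ => ?_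
    rw [hsym]
    have := msq_nonneg (P (η j) (ξ i))
    nlinarith [sq_nonneg ‖⟪ξ i, η j⟫_ℂ‖]
  rw [hdiag, hdiag] at hC
  have hQpos : 0 < Q := by
    obtain ⟨j, hj⟩ := Function.ne_iff.1 hη
    have h3 : 0 < ∑ j, ∑ l, (msq (P (η j) (η l)) + ‖⟪η j, η l⟫_ℂ‖ ^ 2) := by
      refine Finset.sum_pos' (fun j _ => Finset.sum_nonneg fun l _ =>
        add_nonneg (msq_nonneg _) (sq_nonneg _)) ⟨j, Finset.mem_univ _, ?_⟩
      refine Finset.sum_pos' (fun l _ => add_nonneg (msq_nonneg _) (sq_nonneg _))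
        ⟨j, Finset.mem_univ _, add_pos_of_nonneg_of_pos (msq_nonneg _) ?_⟩
      exact pow_pos (norm_pos_iff.2 (inner_self_ne_zero.2 hj)) 2
    by_contra hq
    have : Q = 0 := le_antisymm (not_lt.1 hq) hQ0
    rw [this] at hB
    nlinarith [mul_pos (pow_pos hκ 2) h3]
  have hfin : κ ^ 2 * Q ≤ (2 * M) ^ 2 * Q := by
    nlinarith [sq_nonneg κ]
  exact le_of_sq_le_sq (le_of_mul_le_mul_right hfin hQpos) (by linarith)

end

end Crest.Agent.R132
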