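import Mathlib
import Crest.Agent.R132.Core

/-! Toeplitz–Hausdorff and the block operator bound in finite dimension. -/

open Set Filter Metric Function Complex Real
open scoped Topology ComplexConjugate ComplexOrder InnerProductSpace Matrix

namespace Crest.Agent.R132

variable {E : Type*} [NormedAddCommGroup E] [InnerProductSpace ℂ E]

/-- The numerical range of an operator. -/
def nr (A : E →L[ℂ] E) : Set ℂ := {z | ∃ x : E, ‖x‖ = 1 ∧ z = ⟪x, A x⟫_ℂ}

theorem mem_nr_of_ne {A : E →L[ℂ] E} {v : E} (hv : v ≠ 0) {z : ℂ}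
    (h : ⟪v, A v⟫_ℂ = z * ((‖v‖ ^ 2 : ℝ) : ℂ)) : z ∈ nr A := by
  have hn : (‖v‖ : ℂ) ≠ 0 := by exact_mod_cast norm_ne_zero_iff.2 hv
  refine ⟨(‖v‖ : ℂ)⁻¹ • v, ?_, ?_⟩
  · rw [norm_smul, norm_inv, norm_real, norm_norm, inv_mul_cancel₀ (norm_ne_zero_iff.2 hv)]
  · simp only [map_smul, inner_smul_left, inner_smul_right, h, map_inv₀, conj_ofReal]
    push_cast
    field_simp

/-- **Toeplitz–Hausdorff theorem**. -/
theorem convex_nr (A : E →L[ℂ] E) : Convex ℝ (nr A) := by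
  rintro _ ⟨x, hx, rfl⟩ _ ⟨y, hy, rfl⟩ t' t ht' ht htt
  set a := ⟪x, A x⟫_ℂ with ha
  set b := ⟪y, A y⟫_ℂ with hb
  have ht'e : t' = 1 - t := by linarith
  by_cases hab : b - a = 0
  · refine ⟨x, hx, ?_⟩
    rw [sub_eq_zero.1 hab, ← add_smul, htt, one_smul]
  set d := b - a with hd
  set α := (⟪x, A y⟫_ℂ - a * ⟪x, y⟫_ℂ) / d with hα
  set β := (⟪y, A x⟫_ℂ - a * ⟪y, x⟫_ℂ) / d with hβ
  obtain ⟨l, hl1, hl⟩ : ∃ l : ℂ, ‖l‖ = 1 ∧ (conj l * α + l * β).im = 0 := by
    obtain ⟨l, hl1, hl⟩ := Complex.exists_norm_eq_mul_self (β - conj α)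
    refine ⟨l, hl1, ?_⟩
    have := congrArg im hl
    simp only [mul_im, sub_re, sub_im, conj_re, conj_im, ofReal_im, add_im] at this ⊢
    linarith
  set r := (conj l * α + l * β).re with hr
  have hr' : conj l * α + l * β = r := by
    apply Complex.ext <;> simp [hr, hl]
  set z : ℝ → E := fun s => ((1 - s : ℝ) : ℂ) • l • x + (s : ℂ) • y with hz
  have hll : conj l * l = 1 := by rw [conj_mul', hl1]; simp
  have hxx : ⟪x, x⟫_ℂ = 1 := by rw [inner_self_eq_norm_sq_to_K, hx]; simp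
  have hyy : ⟪y, y⟫_ℂ = 1 := by rw [inner_self_eq_norm_sq_to_K, hy]; simp
  have hq : ∀ s : ℝ, ⟪z s, A (z s)⟫_ℂ - a * ⟪z s, z s⟫_ℂ = d * ((s ^ 2 + s * (1 - s) * r : ℝ)) := by
    intro s
    have e1 : ⟪x, A y⟫_ℂ = d * α + a * ⟪x, y⟫_ℂ := by rw [hα]; field_simp; ring
    have e2 : ⟪y, A x⟫_ℂ = d * β + a * ⟪y, x⟫_ℂ := by rw [hβ]; field_simp; ring
    have e3 : b = d + a := by rw [hd]; ring
    simp only [hz, map_add, map_smul, inner_add_left, inner_add_right, inner_smul_left,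
      inner_smul_right, conj_ofReal, ← ha, ← hb, hxx, hyy, e1, e2]
    push_cast
    rw [← hr', e3]
    ring
  have hcont : ContinuousOn (fun s : ℝ => s ^ 2 + s * (1 - s) * r - t * ‖z s‖ ^ 2) (Icc 0 1) := by
    simp only [hz]; fun_prop
  have h0 : ‖z 0‖ = 1 := by simp [hz, norm_smul, hl1, hx]
  have h1 : ‖z 1‖ = 1 := by simp [hz, hy]
  obtain ⟨s, hs, hs0⟩ := intermediate_value_Icc zero_le_one hcont
    (show (0 : ℝ) ∈ Icc _ _ from ⟨by simp [h0, ht], by simp [h1]; linarith⟩)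
  have hzs : z s ≠ 0 := by
    intro h
    have e : ((1 - s : ℝ) : ℂ) • l • x = -((s : ℂ) • y) := eq_neg_of_add_eq_zero_left h
    have e1 := congrArg norm e
    simp only [norm_smul, norm_neg, norm_real, hl1, hx, hy, mul_one,
      Real.norm_of_nonneg hs.1, Real.norm_of_nonneg (sub_nonneg.2 hs.2)] at e1
    have hs2 : s = 1 / 2 := by linarith
    have e2 : l • x = -y := by
      have e3 : ((1 - s : ℝ) : ℂ) = s := by exact_mod_cast e1
      rw [e3, ← smul_neg] at e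
      exact smul_right_injective _ (by rw [hs2]; norm_num) e
    have e4 : y = -(l • x) := by rw [e2, neg_neg]
    apply hab
    rw [hd, hb, e4]
    simp only [map_neg, map_smul, inner_neg_left, inner_neg_right, inner_smul_left,
      inner_smul_right, ← ha]
    linear_combination a * hll
  refine mem_nr_of_ne hzs ?_
  have h2 := hq s
  have h3 : s ^ 2 + s * (1 - s) * r = t * ‖z s‖ ^ 2 := by linarith
  rw [h3, inner_self_eq_norm_sq_to_K] at h2
  have : (RCLike.ofReal ‖z s‖ : ℂ) = (‖z s‖ : ℂ) := rfl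
  rw [this] at h2
  simp only [real_smul, ht'e]
  push_cast at h2 ⊢
  linear_combination h2

theorem isCompact_nr [FiniteDimensional ℂ E] (A : E →L[ℂ] E) : IsCompact (nr A) := by
  have := FiniteDimensional.proper ℂ E
  have : nr A = (fun x => ⟪x, A x⟫_ℂ) '' sphere 0 1 := by
    ext z; simp [nr, eq_comm]
  rw [this]
  exact (isCompact_sphere 0 1).image (by fun_prop)

theorem isUnit_of_notMem_nr [FiniteDimensional ℂ E] (A : E →L[ℂ] E) {z : ℂ} (hz : z ∉ nr A) :
    IsUnit (z • (1 : E →L[ℂ] E) - A) := by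
  have := FiniteDimensional.complete ℂ E
  have hinj : Injective (z • (1 : E →L[ℂ] E) - A) := by
    rw [injective_iff_map_eq_zero]
    intro v hv
    by_contra hv0
    refine hz (mem_nr_of_ne hv0 ?_)
    have : A v = z • v := by
      have h1 : z • v - A v = 0 := by simpa using hv
      exact (sub_eq_zero.1 h1).symm
    rw [this, inner_smul_right, inner_self_eq_norm_sq_to_K]
    push_cast; rfl
  rw [ContinuousLinearMap.isUnit_iff_bijective]
  exact ⟨hinj, (LinearMap.injective_iff_surjective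
    (f := ((z • (1 : E →L[ℂ] E) - A : E →L[ℂ] E) : E →ₗ[ℂ] E))).1 hinj⟩

theorem exists_singular_pair {F : Type*} [NormedAddCommGroup F] [InnerProductSpace ℂ F]
    [FiniteDimensional ℂ F] [CompleteSpace F] (T : F →L[ℂ] F) (hT : T ≠ 0) :
    ∃ η ξ : F, η ≠ 0 ∧ T η = (‖T‖ : ℂ) • ξ ∧ T.adjoint ξ = (‖T‖ : ℂ) • η := by
  have := FiniteDimensional.proper ℂ F
  obtain ⟨v, hv⟩ : ∃ v, T v ≠ 0 := by
    by_contra h
    push Not at h
    exact hT (ContinuousLinearMap.ext h)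
  have hv0 : v ≠ 0 := fun h => hv (by simp [h])
  have : Nontrivial F := ⟨v, 0, hv0⟩
  let : NormedSpace ℝ F := NormedSpace.restrictScalars ℝ ℂ F
  obtain ⟨η, hη, hmax⟩ := (isCompact_sphere (0 : F) 1).exists_isMaxOn (f := fun x => ‖T x‖)
    (NormedSpace.sphere_nonempty.2 zero_le_one) (by fun_prop)
  rw [mem_sphere_zero_iff_norm] at hη
  have hn : ‖T‖ = ‖T η‖ := by
    refine le_antisymm (T.opNorm_le_bound (norm_nonneg _) fun x => ?_) ?_
    · by_cases hx : x = 0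
      · simp [hx]
      have hx' : 0 < ‖x‖ := norm_pos_iff.2 hx
      have h1 : ‖T ((‖x‖ : ℂ)⁻¹ • x)‖ ≤ ‖T η‖ := hmax (by
        rw [mem_sphere_zero_iff_norm, norm_smul, norm_inv, norm_real, norm_norm,
          inv_mul_cancel₀ hx'.ne'])
      rw [map_smul, norm_smul, norm_inv, norm_real, norm_norm, inv_mul_le_iff₀ hx'] at h1
      linarith
    · simpa [hη] using T.le_opNorm η
  have hκ : 0 < ‖T‖ := norm_pos_iff.2 hT
  have hκ' : (‖T‖ : ℂ) ≠ 0 := by exact_mod_cast hκ.ne'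
  refine ⟨η, (‖T‖ : ℂ)⁻¹ • T η, fun h => by simp [h] at hη, by rw [smul_inv_smul₀ hκ'], ?_⟩
  set ξ := (‖T‖ : ℂ)⁻¹ • T η with hξ
  have hξ1 : ‖ξ‖ = 1 := by
    rw [hξ, norm_smul, norm_inv, norm_real, norm_norm, ← hn, inv_mul_cancel₀ hκ.ne']
  have h1 : ‖T.adjoint ξ‖ ≤ ‖T‖ := by
    simpa [hξ1] using T.adjoint.le_opNorm ξ
  have h2 : ⟪T.adjoint ξ, (‖T‖ : ℂ) • η⟫_ℂ = ((‖T‖ ^ 2 : ℝ) : ℂ) := by
    rw [ContinuousLinearMap.adjoint_inner_left, map_smul, hξ, inner_smul_left, inner_smul_right,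
      inner_self_eq_norm_sq_to_K, ← hn]
    simp only [map_inv₀, conj_ofReal]
    have : (RCLike.ofReal ‖T‖ : ℂ) = (‖T‖ : ℂ) := rfl
    rw [this]
    push_cast
    field_simp
  have h3 := norm_sub_sq (𝕜 := ℂ) (T.adjoint ξ) ((‖T‖ : ℂ) • η)
  rw [h2, norm_smul, norm_real, norm_norm, hη] at h3
  have h4 : RCLike.re (((‖T‖ ^ 2 : ℝ) : ℂ)) = ‖T‖ ^ 2 := rfl
  rw [h4] at h3
  have h5 : ‖T.adjoint ξ - (‖T‖ : ℂ) • η‖ ^ 2 ≤ 0 := by
    nlinarith [norm_nonneg (T.adjoint ξ)]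
  exact sub_eq_zero.1 (norm_eq_zero.1 (pow_eq_zero_iff two_ne_zero |>.1
    (le_antisymm h5 (sq_nonneg _))))

/-- The completely bounded Crouzeix inequality for a block operator in finite dimension. -/
theorem block_bound [FiniteDimensional ℂ E] {ι : Type*} [Fintype ι] [DecidableEq ι]
    {A : E →L[ℂ] E} {Ω : Set ℂ} (hΩ : IsOpen Ω) (hΩc : Convex ℝ Ω) (hA : nr A ⊆ Ω)
    {Φ : ℂ → Matrix ι ι ℂ} {M : ℝ}
    (hM : ∀ z ∈ Ω, ‖Matrix.toEuclideanCLM (n := ι) (𝕜 := ℂ) (Φ z)‖ ≤ M)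
    (T : PiLp 2 (fun _ : ι => E) →L[ℂ] PiLp 2 (fun _ : ι => E))
    (hcomm : ∀ v i, T (WithLp.toLp 2 fun j => A (v j)) i = A (T (WithLp.toLp 2 v) i))
    (hdiv : ∀ (v : PiLp 2 (fun _ : ι => E)) i, ∃ e : ℂ → E, DifferentiableOn ℂ e Ω ∧
      ∀ z ∈ Ω, ∑ j, Φ z i j • v j - T v i = z • e z - A (e z))
    (v : PiLp 2 (fun _ : ι => E)) : ‖T v‖ ≤ 2 * M * ‖v‖ := by
  have := FiniteDimensional.complete ℂ E
  by_cases hv : v = 0
  · simp [hv]
  have hne : (nr A).Nonempty := by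
    obtain ⟨j, hj⟩ : ∃ j, v j ≠ 0 := by
      by_contra h
      push Not at h
      exact hv (PiLp.ext h)
    have hn : ((‖v j‖ ^ 2 : ℝ) : ℂ) ≠ 0 := by exact_mod_cast pow_ne_zero 2 (norm_ne_zero_iff.2 hj)
    exact ⟨_, mem_nr_of_ne hj (div_mul_cancel₀ _ hn).symm⟩
  have hM0 : 0 ≤ M := (norm_nonneg _).trans (hM _ (hA hne.some_mem))
  refine T.le_of_opNorm_le ?_ v
  by_cases hT : T = 0
  · rw [hT, norm_zero]; linarith
  obtain ⟨R, c, g, H⟩ := exists_isExt (isCompact_nr A) (convex_nr A) hne hΩ hA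
  obtain ⟨η, ξ, hη, h1, h2⟩ := exists_singular_pair T hT
  have hres : ∀ z ∉ nr A, IsUnit (z • (1 : E →L[ℂ] E) - A) := fun z hz => isUnit_of_notMem_nr A hz
  have hr1 : ∀ z ∉ nr A, ∀ y, res A z (z • y - A y) = y := by
    intro z hz y
    have := congrArg (fun B : E →L[ℂ] E => B y) (Ring.inverse_mul_cancel _ (hres z hz))
    simpa [res] using this
  have hr2 : ∀ z ∉ nr A, ∀ y, z • res A z y - A (res A z y) = y := by
    intro z hz y
    have := congrArg (fun B : E →L[ℂ] E => B y) (Ring.mul_inverse_cancel _ (hres z hz))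
    simpa [res] using this
  refine core_vec H hΩ hΩc (fun x hx => ⟨x, hx, rfl⟩) hres hM (norm_pos_iff.2 hT)
    (η := fun j => η j) (ξ := fun j => ξ j) (fun k i => ?_) (fun j l => ?_) ?_
  · obtain ⟨e, he, he'⟩ := hdiv η i
    refine ⟨fun z => ⟪ξ k, e z⟫_ℂ, (innerSL ℂ (ξ k)).differentiable.comp_differentiableOn he,
      fun z hz hzW => ?_⟩
    have h3 := congrArg (res A z) (he' z hz)
    rw [hr1 z hzW, h1] at h3
    simp only [← h3, map_sub, map_sum, map_smul, PiLp.smul_apply, inner_sub_right, inner_sum,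
      inner_smul_right]
    ring
  · choose e he he' using hdiv (PiLp.single 2 j (η l))
    refine ⟨fun z => ∑ i, ⟪ξ i, e i z⟫_ℂ, DifferentiableOn.fun_sum fun i _ =>
      (innerSL ℂ (ξ i)).differentiable.comp_differentiableOn (he i), fun z hz hzW => ?_⟩
    set x := res A z (η l) with hx
    have h3 : (‖T‖ : ℂ) * ⟪η j, x⟫_ℂ = ∑ i, ⟪ξ i, T (PiLp.single 2 j x) i⟫_ℂ := by
      rw [← PiLp.inner_apply, ← ContinuousLinearMap.adjoint_inner_left T, h2, PiLp.inner_apply,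
        Finset.sum_eq_single j (fun b _ hb => by simp [hb]) (by simp)]
      simp
    have h4 : ∀ i, e i z = Φ z i j • x - T (PiLp.single 2 j x) i := by
      intro i
      have h5 := he' i z hz
      rw [Finset.sum_eq_single j (fun b _ hb => by simp [hb]) (by simp)] at h5
      have h6 : PiLp.single 2 j (η l) = z • PiLp.single (β := fun _ : ι => E) 2 j x -
          WithLp.toLp 2 fun b => A (PiLp.single (β := fun _ : ι => E) 2 j x b) := by
        ext b
        by_cases hb : b = j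
        · subst hb; simp [hx, hr2 z hzW]
        · simp [hb]
      have h7 := hcomm (fun b => PiLp.single (β := fun _ : ι => E) 2 j x b) i
      rw [← hr1 z hzW (e i z), ← h5, ← hr1 z hzW (Φ z i j • x - T (PiLp.single 2 j x) i)]
      congr 1
      conv_lhs => rw [h6, map_sub, map_smul]
      simp only [PiLp.sub_apply, PiLp.smul_apply, h7, PiLp.single_eq_same, map_sub, map_smul,
        smul_sub, WithLp.toLp_ofLp]
      rw [smul_comm z (Φ z i j) x]
      abel
    rw [h3, ← Finset.sum_add_distrib]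
    refine Finset.sum_congr rfl fun i _ => ?_
    rw [h4, inner_sub_right, inner_smul_right]
    ring
  · exact fun h => hη (PiLp.ext fun j => congrFun h j)

end Crest.Agent.R132
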