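import Mathlib
import Crest.Prelude.Def_NumRangeMetric
import Crest.Agent.Lib.RMT.Basic

/-! Holomorphic functional calculus for matrices through interpolating polynomials. -/

open Set Filter Metric Function Complex Polynomial
open scoped Topology ComplexConjugate ComplexOrder Matrix
open Crest.AnalysisR.NumRange

namespace Crest.Agent.R132

/-- Entrywise holomorphic matrix functions. -/
def MDiff {m n : Type*} (E : ℂ → Matrix m n ℂ) (V : Set ℂ) : Prop :=
  ∀ i j, DifferentiableOn ℂ (fun z => E z i j) V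

namespace MDiff

variable {l m n : Type*} {V : Set ℂ}

theorem const (M : Matrix m n ℂ) : MDiff (fun _ => M) V := fun _ _ => differentiableOn_const _

theorem mono {E : ℂ → Matrix m n ℂ} {V' : Set ℂ} (h : MDiff E V) (h' : V' ⊆ V) : MDiff E V' :=
  fun i j => (h i j).mono h'

theorem add {E F : ℂ → Matrix m n ℂ} (h : MDiff E V) (h' : MDiff F V) :
    MDiff (fun z => E z + F z) V := fun i j => (h i j).add (h' i j)

theorem sub {E F : ℂ → Matrix m n ℂ} (h : MDiff E V) (h' : MDiff F V) :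
    MDiff (fun z => E z - F z) V := fun i j => (h i j).sub (h' i j)

theorem smul {φ : ℂ → ℂ} {E : ℂ → Matrix m n ℂ} (hφ : DifferentiableOn ℂ φ V) (h : MDiff E V) :
    MDiff (fun z => φ z • E z) V := fun i j => hφ.mul (h i j)

theorem mul [Fintype m] {E : ℂ → Matrix l m ℂ} {F : ℂ → Matrix m n ℂ} (h : MDiff E V)
    (h' : MDiff F V) : MDiff (fun z => E z * F z) V := fun i j => by
  simp only [Matrix.mul_apply]
  exact DifferentiableOn.fun_sum fun k _ => (h i k).mul (h' k j)

theorem det [Fintype n] [DecidableEq n] {E : ℂ → Matrix n n ℂ} (h : MDiff E V) :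
    DifferentiableOn ℂ (fun z => (E z).det) V := by
  simp only [Matrix.det_apply']
  refine DifferentiableOn.fun_sum fun σ _ => DifferentiableOn.const_mul ?_ _
  exact DifferentiableOn.fun_finsetProd fun i _ => h _ _

theorem inv [Fintype n] [DecidableEq n] {E : ℂ → Matrix n n ℂ} (h : MDiff E V)
    (h0 : ∀ z ∈ V, (E z).det ≠ 0) : MDiff (fun z => (E z)⁻¹) V := fun i j => by
  simp only [Matrix.inv_def, Ring.inverse_eq_inv', Matrix.smul_apply, smul_eq_mul,
    Matrix.adjugate_apply]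
  refine (h.det.inv h0).mul (MDiff.det fun a b => ?_)
  by_cases hab : a = j
  · simp only [hab, Matrix.updateRow_self]; exact differentiableOn_const _
  · simp only [Matrix.updateRow_ne hab]; exact h a b

end MDiff

variable {n : ℕ}

theorem poly_div (A : Matrix (Fin n) (Fin n) ℂ) (r : ℂ[X]) :
    ∃ D : ℂ → Matrix (Fin n) (Fin n) ℂ, MDiff D univ ∧ ∀ z, Commute A (D z) ∧
      r.eval z • (1 : Matrix (Fin n) (Fin n) ℂ) - aeval A r = (z • 1 - A) * D z := by
  induction r using Polynomial.induction_on with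
  | C a => exact ⟨fun _ => 0, MDiff.const _, fun z => ⟨Commute.zero_right _, by
      simp [Algebra.algebraMap_eq_smul_one]⟩⟩
  | add p q hp hq =>
    obtain ⟨D, hD, hD'⟩ := hp
    obtain ⟨E, hE, hE'⟩ := hq
    refine ⟨fun z => D z + E z, hD.add hE, fun z => ⟨(hD' z).1.add_right (hE' z).1, ?_⟩⟩
    rw [mul_add, ← (hD' z).2, ← (hE' z).2, eval_add, map_add, add_smul]
    abel
  | monomial k a h =>
    obtain ⟨D, hD, hD'⟩ := h
    refine ⟨fun z => (C a * X ^ k).eval z • 1 + D z * A,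
      (MDiff.smul (Polynomial.differentiable _).differentiableOn (MDiff.const _)).add
        (hD.mul (MDiff.const _)), fun z => ⟨?_, ?_⟩⟩
    · exact ((Commute.one_right A).smul_right _).add_right ((hD' z).1.mul_right (Commute.refl A))
    · rw [mul_add, ← mul_assoc, ← (hD' z).2, pow_succ, ← mul_assoc, eval_mul, map_mul, aeval_X,
        eval_X]
      simp only [sub_mul, mul_smul_comm, smul_mul_assoc, mul_one, one_mul, smul_sub, smul_smul]
      abel

theorem multiset_div {V : Set ℂ} (hV : IsOpen V) (s : Multiset ℂ) :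
    ∀ {g : ℂ → ℂ}, DifferentiableOn ℂ g V →
      (∀ a ∈ s, a ∈ V ∧ (s.count a : ℕ∞) ≤ analyticOrderAt g a) →
      ∃ k, DifferentiableOn ℂ k V ∧ ∀ z ∈ V, g z = (s.map fun a => z - a).prod * k z := by
  induction s using Multiset.induction_on with
  | empty => exact fun {g} hg _ => ⟨g, hg, fun z _ => by simp⟩
  | cons a s ih =>
    intro g hg h
    obtain ⟨haV, ha⟩ := h a (Multiset.mem_cons_self a s)
    have hga : g a = 0 := by
      refine apply_eq_zero_of_analyticOrderAt_ne_zero fun h0 => ?_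
      rw [h0, Multiset.count_cons_self] at ha
      simp at ha
    have hd : DifferentiableOn ℂ (dslope g a) V := (differentiableOn_dslope (hV.mem_nhds haV)).2 hg
    have he : g = (fun z => z - a) * dslope g a := by
      ext z
      simpa [hga] using (sub_smul_dslope g a z).symm
    obtain ⟨k, hk, hk'⟩ := ih hd fun b hb => by
      obtain ⟨hbV, hb'⟩ := h b (Multiset.mem_cons_of_mem hb)
      refine ⟨hbV, ?_⟩
      have h1 : analyticOrderAt g b =
          analyticOrderAt (fun z => z - a) b + analyticOrderAt (dslope g a) b := by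
        conv_lhs => rw [he]
        exact analyticOrderAt_mul (by fun_prop) (hd.analyticAt (hV.mem_nhds hbV))
      by_cases hba : b = a
      · subst hba
        rw [h1, Multiset.count_cons_self, analyticOrderAt_id_sub_const_self, Nat.cast_add,
          Nat.cast_one, add_comm] at hb'
        exact (ENat.add_le_add_iff_left ENat.one_ne_top).1 hb'
      · rwa [h1, Multiset.count_cons_of_ne hba, analyticOrderAt_id_sub_const_of_ne hba,
          zero_add] at hb'
    refine ⟨k, hk, fun z hz => ?_⟩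
    rw [Multiset.map_cons, Multiset.prod_cons, mul_assoc, ← hk' z hz]
    exact congrFun he z

/-- `φ(z) - φ(A)` is divisible by `z - A`. -/
theorem calc_div (A : Matrix (Fin n) (Fin n) ℂ) {V : Set ℂ} (hV : IsOpen V)
    (hσ : spectrum ℂ A ⊆ V) {φ : ℂ → ℂ} (hφ : DifferentiableOn ℂ φ V) {q : ℂ[X]}
    (hq : AgreesOnSpectrum A φ q) :
    ∃ E : ℂ → Matrix (Fin n) (Fin n) ℂ, MDiff E V ∧ ∀ z ∈ V, Commute A (E z) ∧
      φ z • (1 : Matrix (Fin n) (Fin n) ℂ) - aeval A q = (z • 1 - A) * E z := by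
  have hqd : Differentiable ℂ fun z => q.eval z := q.differentiable
  obtain ⟨k, hk, hk'⟩ := multiset_div hV A.charpoly.roots (hφ.sub hqd.differentiableOn)
    fun a ha => by
      have ha' : a ∈ spectrum ℂ A :=
        Matrix.mem_spectrum_iff_isRoot_charpoly.2 (isRoot_of_mem_roots ha)
      have h1 : AnalyticAt ℂ φ a := hφ.analyticAt (hV.mem_nhds (hσ ha'))
      have h2 : AnalyticAt ℂ (fun z => q.eval z) a := hqd.analyticAt a
      refine ⟨hσ ha', le_trans ?_
        ((natCast_le_analyticOrderAt_iff_iteratedDeriv_eq_zero (n := n) (h1.sub h2)).2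
          fun i hi => ?_)⟩
      · have := (Multiset.count_le_card a _).trans (card_roots' A.charpoly)
        rw [Matrix.charpoly_natDegree_eq_dim, Fintype.card_fin] at this
        exact_mod_cast this
      · rw [iteratedDeriv_sub h1.contDiffAt h2.contDiffAt, hq a ha' i hi, sub_self]
  obtain ⟨D, hD, hD'⟩ := poly_div A q
  obtain ⟨F, hF, hF'⟩ := poly_div A A.charpoly
  refine ⟨fun z => D z + k z • F z, (hD.mono (subset_univ _)).add
    (MDiff.smul hk (hF.mono (subset_univ _))),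
    fun z hz => ⟨(hD' z).1.add_right ((hF' z).1.smul_right _), ?_⟩⟩
  have h1 := hk' z hz
  rw [← (IsAlgClosed.splits A.charpoly).eval_eq_prod_roots_of_monic A.charpoly_monic] at h1
  rw [mul_add, mul_smul_comm, ← (hD' z).2, ← (hF' z).2, Matrix.aeval_self_charpoly, sub_zero,
    smul_smul, mul_comm (k z), ← h1]
  simp only [Pi.sub_apply, sub_smul]
  abel

theorem aeval_mulVec_of_eigen {A : Matrix (Fin n) (Fin n) ℂ} {y : Fin n → ℂ} {l : ℂ}
    (h : A *ᵥ y = l • y) (p : ℂ[X]) : aeval A p *ᵥ y = p.eval l • y := by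
  obtain ⟨D, -, hD⟩ := poly_div A p
  have h1 := (hD l).2
  have h2 : Commute (l • (1 : Matrix (Fin n) (Fin n) ℂ) - A) (D l) :=
    ((Commute.one_left _).smul_left l).sub_left (hD l).1
  rw [h2.eq] at h1
  have h3 := congrArg (· *ᵥ y) h1
  simp only [← Matrix.mulVec_mulVec, Matrix.sub_mulVec, Matrix.smul_mulVec, Matrix.one_mulVec, h,
    sub_self, Matrix.mulVec_zero] at h3
  exact (sub_eq_zero.1 h3).symm

theorem mem_spectrum_of_eigen {A : Matrix (Fin n) (Fin n) ℂ} {y : Fin n → ℂ} {l : ℂ}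
    (hy : y ≠ 0) (h : A *ᵥ y = l • y) : l ∈ spectrum ℂ A := by
  rw [← Matrix.spectrum_toLin', ← Module.End.hasEigenvalue_iff_mem_spectrum]
  exact Module.End.hasEigenvalue_of_hasEigenvector ⟨Module.End.mem_eigenspace_iff.2 (by simpa), hy⟩

theorem exists_eigen_of_mem_spectrum {A : Matrix (Fin n) (Fin n) ℂ} {l : ℂ}
    (h : l ∈ spectrum ℂ A) : ∃ y : Fin n → ℂ, y ≠ 0 ∧ A *ᵥ y = l • y := by
  rw [← Matrix.spectrum_toLin', ← Module.End.hasEigenvalue_iff_mem_spectrum] at h
  obtain ⟨y, hy⟩ := h.exists_hasEigenvector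
  exact ⟨y, hy.2, by simpa using hy.apply_eq_smul⟩

theorem spectrum_subset_numRange (A : Matrix (Fin n) (Fin n) ℂ) : spectrum ℂ A ⊆ numRange A := by
  intro l hl
  obtain ⟨y, hy, h⟩ := exists_eigen_of_mem_spectrum hl
  set x : EuclideanSpace ℂ (Fin n) := WithLp.toLp 2 y with hx
  have hx0 : x ≠ 0 := fun h => hy (by simpa [hx] using h)
  have hn : (‖x‖ : ℂ) ≠ 0 := by exact_mod_cast norm_ne_zero_iff.2 hx0
  have h1 : Matrix.toEuclideanLin A x = l • x := by
    ext i; simp [hx, h]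
  refine ⟨(‖x‖ : ℂ)⁻¹ • x, ?_, ?_⟩
  · rw [norm_smul, norm_inv, norm_real, norm_norm, inv_mul_cancel₀ (norm_ne_zero_iff.2 hx0)]
  · simp only [map_smul, h1, inner_smul_left, inner_smul_right, map_inv₀, conj_ofReal,
      inner_self_eq_norm_sq_to_K]
    have : (RCLike.ofReal ‖x‖ : ℂ) = (‖x‖ : ℂ) := rfl
    rw [this]
    field_simp

/-- For injective `f` the quotient `(f(z) - f(A)) / (z - A)` is invertible. -/
theorem det_quot_ne_zero {A : Matrix (Fin n) (Fin n) ℂ} {U : Set ℂ} (hU : IsOpen U)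
    (hσ : spectrum ℂ A ⊆ U) {f : ℂ → ℂ} (hf : DifferentiableOn ℂ f U) (hinj : InjOn f U)
    {p : ℂ[X]} (hp : AgreesOnSpectrum A f p) {E : ℂ → Matrix (Fin n) (Fin n) ℂ} (hE : MDiff E U)
    (hE' : ∀ z ∈ U, Commute A (E z) ∧
      f z • (1 : Matrix (Fin n) (Fin n) ℂ) - aeval A p = (z • 1 - A) * E z)
    {z : ℂ} (hz : z ∈ U) : (E z).det ≠ 0 := by
  intro hdet
  obtain ⟨x, hx0, hx⟩ := Matrix.exists_mulVec_eq_zero_iff.2 hdet
  set K := LinearMap.ker (Matrix.toLin' (E z)) with hK
  have hmaps : ∀ v ∈ K, Matrix.toLin' A v ∈ K := by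
    intro v hv
    simp only [hK, LinearMap.mem_ker, Matrix.toLin'_apply] at hv ⊢
    rw [Matrix.mulVec_mulVec, ← (hE' z hz).1.eq, ← Matrix.mulVec_mulVec, hv, Matrix.mulVec_zero]
  have : Nontrivial K := ⟨⟨x, by simpa [hK] using hx⟩, 0, fun h => hx0 (congrArg Subtype.val h)⟩
  obtain ⟨l, hl⟩ := Module.End.exists_eigenvalue ((Matrix.toLin' A).restrict hmaps)
  obtain ⟨y, hy⟩ := hl.exists_hasEigenvector
  have hy0 : (y : Fin n → ℂ) ≠ 0 := fun h => hy.2 (Subtype.ext h)
  have hAy : A *ᵥ (y : Fin n → ℂ) = l • (y : Fin n → ℂ) := by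
    simpa using congrArg Subtype.val hy.apply_eq_smul
  have hEy : E z *ᵥ (y : Fin n → ℂ) = 0 := LinearMap.mem_ker.1 y.2
  have hlσ := mem_spectrum_of_eigen hy0 hAy
  obtain ⟨i, hi⟩ := Function.ne_iff.1 hy0
  have hi : (y : Fin n → ℂ) i ≠ 0 := hi
  have hpl : p.eval l = f l := by simpa using hp l hlσ 0 (Fin.pos i)
  have key : ∀ ζ ∈ U, f ζ - f l = (ζ - l) * ((E ζ *ᵥ (y : Fin n → ℂ)) i / (y : Fin n → ℂ) i) := by
    intro ζ hζ
    have h1 := (hE' ζ hζ).2
    have h2 : Commute (ζ • (1 : Matrix (Fin n) (Fin n) ℂ) - A) (E ζ) :=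
      ((Commute.one_left _).smul_left ζ).sub_left (hE' ζ hζ).1
    rw [h2.eq] at h1
    have h3 := congrArg (fun M => (M *ᵥ (y : Fin n → ℂ)) i) h1
    simp only [← Matrix.mulVec_mulVec, Matrix.sub_mulVec, Matrix.smul_mulVec, Matrix.one_mulVec,
      hAy, aeval_mulVec_of_eigen hAy, hpl, ← sub_smul, Matrix.mulVec_smul, Pi.smul_apply,
      smul_eq_mul] at h3
    field_simp
    linear_combination h3
  have hzl : z = l := by
    have := key z hz
    rw [hEy] at this
    exact hinj hz (hσ hlσ) (by simpa [sub_eq_zero] using this)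
  subst hzl
  have hψ : DifferentiableAt ℂ
      (fun ζ => (E ζ *ᵥ (y : Fin n → ℂ)) i / (y : Fin n → ℂ) i) z := by
    simp only [Matrix.mulVec, dotProduct]
    refine DifferentiableAt.div_const (DifferentiableAt.fun_sum fun j _ => ?_) _
    exact ((hE i j).differentiableAt (hU.mem_nhds hz)).mul_const _
  have h4 : HasDerivAt (fun ζ : ℂ => ζ - z) 1 z := (hasDerivAt_id z).sub_const z
  have h5 := (h4.fun_mul hψ.hasDerivAt).congr_of_eventuallyEq (f₁ := fun ζ => f ζ - f z)
    (by filter_upwards [hU.mem_nhds hz] with ζ hζ using key ζ hζ)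
  have h6 := h5.deriv
  rw [deriv_sub_const, hEy] at h6
  exact Lib.RMT.deriv_ne_zero_of_injOn hU hf hinj hz (by simpa using h6)

theorem spectrum_aeval_lt (hn : 1 ≤ n) {A : Matrix (Fin n) (Fin n) ℂ} {Ω : Set ℂ} {f : ℂ → ℂ}
    (hf : f '' Ω = ball 0 1) (hσ : spectrum ℂ A ⊆ Ω) {p : ℂ[X]} (hp : AgreesOnSpectrum A f p) :
    ∀ w ∈ spectrum ℂ (aeval A p), ‖w‖ < 1 := by
  have : Nonempty (Fin n) := ⟨⟨0, hn⟩⟩
  rw [spectrum.map_polynomial_aeval_of_nonempty A p
    (spectrum.nonempty_of_isAlgClosed_of_finiteDimensional ℂ A)]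
  rintro _ ⟨l, hl, rfl⟩
  have h1 : p.eval l = f l := by simpa using hp l hl 0 hn
  have h2 : f l ∈ ball (0 : ℂ) 1 := hf ▸ mem_image_of_mem f (hσ hl)
  simpa [h1] using h2

end Crest.Agent.R132
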