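import Mathlib
import Crest.Agent.Lib.RMT.Basic

/-! Boundary curves: winding and closed curve integrals. -/

open Set Filter Metric Function Complex
open scoped Topology ComplexConjugate Real

namespace Crest.Agent.R132

theorem winding {w w' : ℝ → ℂ} (hw : ∀ θ, HasDerivAt w (w' θ) θ) (hc : Continuous w')
    (h1 : ∀ θ, ‖w θ‖ = 1) (h0 : ∀ θ, w' θ ≠ 0) (hp : w (2 * π) = w 0)
    (hi : ∀ θ ∈ Ioo 0 (2 * π), w θ ≠ w 0) :
    (∃ s : ℂ, ∀ θ, (‖w' θ‖ : ℂ) * w θ = s * w' θ) ∧ ∫ θ in (0 : ℝ)..2 * π, ‖w' θ‖ = 2 * π := by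
  have hwc : Continuous w := continuous_iff_continuousAt.2 fun θ => (hw θ).continuousAt
  have hww : ∀ θ, w θ * conj (w θ) = 1 := fun θ => by rw [mul_conj', h1]; simp
  set ρ : ℝ → ℝ := fun θ => (conj (w θ) * w' θ).im with hρ
  have hρc : Continuous ρ := by fun_prop
  have hre : ∀ θ, (conj (w θ) * w' θ).re = 0 := by
    intro θ
    have h2 := (hw θ).fun_mul (hw θ).star
    simp only [star_def, hww] at h2
    have h3 := congrArg re (h2.unique (hasDerivAt_const θ (1 : ℂ)))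
    simp only [add_re, mul_re, conj_re, conj_im, zero_re] at h3 ⊢
    linarith
  have hw' : ∀ θ, w' θ = w θ * (ρ θ * I) := by
    intro θ
    have h2 : conj (w θ) * w' θ = ρ θ * I := by
      rw [← re_add_im (conj (w θ) * w' θ), hre, ofReal_zero, zero_add]
    rw [← h2, ← mul_assoc, hww, one_mul]
  have hρ0 : ∀ θ, ρ θ ≠ 0 := fun θ h => h0 θ (by rw [hw', h]; simp)
  obtain ⟨σ, hσ, hσρ⟩ : ∃ σ : ℝ, (σ = 1 ∨ σ = -1) ∧ ∀ θ, 0 < σ * ρ θ := by
    rcases (hρ0 0).lt_or_gt with h | h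
    · refine ⟨-1, Or.inr rfl, fun θ => ?_⟩
      by_contra hc
      obtain ⟨t, ht⟩ := intermediate_value_univ 0 θ hρc (show (0 : ℝ) ∈ Icc _ _ from ⟨h.le, by
        linarith⟩)
      exact hρ0 t ht
    · refine ⟨1, Or.inl rfl, fun θ => ?_⟩
      by_contra hc
      obtain ⟨t, ht⟩ := intermediate_value_univ θ 0 hρc (show (0 : ℝ) ∈ Icc _ _ from ⟨by
        linarith, h.le⟩)
      exact hρ0 t ht
  have hσσ : σ * σ = 1 := by rcases hσ with rfl | rfl <;> norm_num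
  have hn : ∀ θ, ‖w' θ‖ = σ * ρ θ := by
    intro θ
    rw [hw', norm_mul, h1, norm_mul, norm_I, norm_real, one_mul, mul_one, ← abs_of_pos (hσρ θ),
      abs_mul, Real.norm_eq_abs]
    rcases hσ with rfl | rfl <;> simp
  refine ⟨⟨-σ * I, fun θ => ?_⟩, ?_⟩
  · rw [hn, hw' θ]
    push_cast
    linear_combination (σ * ρ θ * w θ) * I_mul_I
  set ψ : ℝ → ℝ := fun θ => ∫ t in (0 : ℝ)..θ, ‖w' t‖ with hψ
  have hψ' : ∀ θ, HasDerivAt ψ (σ * ρ θ) θ := fun θ => by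
    rw [← hn]
    exact (hc.norm.integral_hasStrictDerivAt 0 θ).hasDerivAt
  have hψc : Continuous ψ := continuous_iff_continuousAt.2 fun θ => (hψ' θ).continuousAt
  have hψ0 : ψ 0 = 0 := by simp [hψ]
  have hg : ∀ θ, HasDerivAt (fun θ => w θ * exp (-(σ * ψ θ * I))) 0 θ := by
    intro θ
    have h2 := (hw θ).fun_mul (((((hψ' θ).ofReal_comp.const_mul (σ : ℂ)).mul_const I).neg).cexp)
    refine h2.congr_deriv ?_
    have h3 : (σ : ℂ) * σ = 1 := by exact_mod_cast hσσ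
    rw [hw' θ]
    simp only [Pi.neg_apply]
    push_cast
    linear_combination (-(w θ * exp (-(σ * ψ θ * I)) * ρ θ * I)) * h3
  have hg' : ∀ θ, w θ * exp (-(σ * ψ θ * I)) = w 0 := fun θ => by
    have := is_const_of_deriv_eq_zero (fun θ => (hg θ).differentiableAt) (fun θ => (hg θ).deriv) θ 0
    simpa [hψ0] using this
  have hw0 : w 0 ≠ 0 := fun h => by simpa [h] using h1 0
  have h2 := hg' (2 * π)
  rw [hp, mul_eq_left₀ hw0, exp_eq_one_iff] at h2
  obtain ⟨k, hk⟩ := h2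
  have hk' : ψ (2 * π) = (-σ * k) * (2 * π) := by
    have h3 := congrArg im hk
    simp at h3
    linear_combination (-σ) * h3 - ψ (2 * π) * hσσ
  obtain ⟨j, hj⟩ : ∃ j : ℤ, ψ (2 * π) = j * (2 * π) := by
    rcases hσ with rfl | rfl
    · exact ⟨-k, by rw [hk']; push_cast; ring⟩
    · exact ⟨k, by rw [hk']; ring⟩
  have hpos : 0 < ψ (2 * π) :=
    intervalIntegral.intervalIntegral_pos_of_pos (hc.norm.intervalIntegrable _ _)
      (fun θ => norm_pos_iff.2 (h0 θ)) Real.two_pi_pos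
  have hj1 : 0 < j := by
    rw [hj] at hpos
    exact_mod_cast (mul_pos_iff_of_pos_right Real.two_pi_pos).1 hpos
  have hj2 : j ≤ 1 := by
    by_contra hj2
    have hj3 : (1 : ℝ) < j := by exact_mod_cast not_le.1 hj2
    obtain ⟨θ, hθ, hθ'⟩ := intermediate_value_Ioo Real.two_pi_pos.le hψc.continuousOn
      (show 2 * π ∈ Ioo (ψ 0) (ψ (2 * π)) from ⟨by rw [hψ0]; exact Real.two_pi_pos, by
        rw [hj]; nlinarith [Real.pi_pos]⟩)
    refine hi θ hθ ?_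
    rw [← hg' θ, hθ']
    have : exp (-(σ * (2 * π : ℝ) * I)) = 1 := by
      rw [exp_eq_one_iff]
      rcases hσ with rfl | rfl
      · exact ⟨-1, by push_cast; ring⟩
      · exact ⟨1, by push_cast; ring⟩
    rw [this, mul_one]
  obtain rfl : j = 1 := by omega
  simpa using hj

theorem closed_integral {K V : Set ℂ} (hK : IsCompact K) (hKc : Convex ℝ K) (hV : IsOpen V)
    (hKV : K ⊆ V) {h : ℂ → ℂ} (hh : DifferentiableOn ℂ h V) {γ γ' : ℝ → ℂ}
    (hγ : ∀ θ, HasDerivAt γ (γ' θ) θ) (hc : Continuous γ') (hγK : ∀ θ, γ θ ∈ K)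
    (hp : γ (2 * π) = γ 0) : ∫ θ in (0 : ℝ)..2 * π, γ' θ * h (γ θ) = 0 := by
  obtain ⟨δ, hδ, hsub⟩ := hK.exists_thickening_subset_open hV hKV
  obtain ⟨P, hP⟩ := (hKc.thickening δ).exists_forall_hasDerivWithinAt (hh.mono hsub)
  have hmem : ∀ θ, γ θ ∈ thickening δ K := fun θ => self_subset_thickening hδ K (hγK θ)
  have hγc : Continuous γ := continuous_iff_continuousAt.2 fun θ => (hγ θ).continuousAt
  have h1 : ∀ θ, HasDerivAt (fun θ => P (γ θ)) (γ' θ * h (γ θ)) θ := fun θ =>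
    ((hP _ (hmem θ)).hasDerivAt (isOpen_thickening.mem_nhds (hmem θ))).scomp θ (hγ θ)
  rw [intervalIntegral.integral_eq_sub_of_hasDerivAt (fun θ _ => h1 θ), hp, sub_self]
  exact (hc.mul (hh.continuousOn.comp_continuous hγc fun θ => hKV (hγK θ))).intervalIntegrable _ _

theorem boundary_mem {Ω : Set ℂ} (hΩ : IsOpen Ω) {G : ℂ → ℂ} {r : ℝ} (hr : r < 1)
    (hG₁ : DifferentiableOn ℂ G {t : ℂ | r < ‖t‖}) (hG₂ : InjOn G {t : ℂ | r < ‖t‖})
    (hG₃ : G '' {t : ℂ | 1 < ‖t‖} = (closure Ω)ᶜ) {u : ℂ} (hu : ‖u‖ = 1) :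
    G u ∈ closure Ω ∧ G u ∉ Ω := by
  have hur : u ∈ {t : ℂ | r < ‖t‖} := by simpa [hu] using hr
  constructor
  · by_contra h
    obtain ⟨t, ht, htu⟩ : G u ∈ G '' {t : ℂ | 1 < ‖t‖} := by rw [hG₃]; exact h
    have := hG₂ (hr.trans ht : r < ‖t‖) hur htu
    subst this
    exact absurd hu (ne_of_gt ht)
  · intro h
    have h1 : ContinuousAt G u :=
      hG₁.continuousOn.continuousAt ((isOpen_lt continuous_const continuous_norm).mem_nhds hur)
    have h2 : Tendsto (fun s : ℝ => (s : ℂ) * u) (𝓝[>] 1) (𝓝 u) := by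
      refine tendsto_nhdsWithin_of_tendsto_nhds ?_
      have : Continuous fun s : ℝ => (s : ℂ) * u := by fun_prop
      simpa using this.tendsto 1
    obtain ⟨s, hs, hs1⟩ := (((h1.tendsto.comp h2).eventually (hΩ.mem_nhds h)).and
      self_mem_nhdsWithin).exists
    have hs1 : 1 < s := hs1
    have h3 : G (s * u) ∈ (closure Ω)ᶜ := by
      rw [← hG₃]
      refine mem_image_of_mem G ?_
      simpa [hu, abs_of_pos (one_pos.trans hs1)] using hs1
    exact h3 (subset_closure hs)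

theorem norm_le_one_of_closure {Ω U : Set ℂ} (hΩU : closure Ω ⊆ U) {f : ℂ → ℂ}
    (hf₁ : DifferentiableOn ℂ f U) (hf₃ : f '' Ω = ball 0 1) {z : ℂ} (hz : z ∈ closure Ω) :
    ‖f z‖ ≤ 1 := by
  have := (hf₁.continuousOn.mono hΩU).image_closure (mem_image_of_mem f hz)
  rw [hf₃, closure_ball _ one_ne_zero] at this
  simpa using this

theorem norm_eq_one_of_boundary {Ω U : Set ℂ} (hΩU : closure Ω ⊆ U) {f : ℂ → ℂ}
    (hf₁ : DifferentiableOn ℂ f U) (hf₂ : InjOn f U) (hf₃ : f '' Ω = ball 0 1) {z : ℂ}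
    (hz : z ∈ closure Ω) (hz' : z ∉ Ω) : ‖f z‖ = 1 := by
  refine (norm_le_one_of_closure hΩU hf₁ hf₃ hz).eq_of_not_lt fun h => ?_
  obtain ⟨z', h1, h2⟩ : f z ∈ f '' Ω := by rw [hf₃]; simpa using h
  exact hz' (hf₂ (hΩU (subset_closure h1)) (hΩU hz) h2 ▸ h1)

end Crest.Agent.R132
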