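import Mathlib
import Crest.Agent.R132.Block
import Crest.Agent.R132.Calc

/-! Duality for the metric problem. -/

open Set Filter Metric Function Complex
open scoped Topology ComplexConjugate ComplexOrder Matrix InnerProductSpace
open Crest.AnalysisR.NumRange

namespace Crest.Agent.R132

theorem exists_unitary_of_gram {m k : Type*} [Fintype m] [Fintype k] [DecidableEq m]
    [DecidableEq k] (P N : Matrix m k ℂ) (h : Pᴴ * P = Nᴴ * N) :
    ∃ W : Matrix m m ℂ, Wᴴ * W = 1 ∧ W * P = N := by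
  set P' := Matrix.toEuclideanLin P with hP'
  set N' := Matrix.toEuclideanLin N with hN'
  have hnorm : ∀ c, ‖N' c‖ = ‖P' c‖ := by
    intro c
    have h1 : ∀ Q : Matrix m k ℂ, ⟪Matrix.toEuclideanLin Q c, Matrix.toEuclideanLin Q c⟫_ℂ =
        ⟪c, Matrix.toEuclideanLin (Qᴴ * Q) c⟫_ℂ := by
      intro Q
      rw [Matrix.toLpLin_mul (q := 2), Matrix.toEuclideanLin_conjTranspose_eq_adjoint,
        LinearMap.comp_apply, LinearMap.adjoint_inner_right]
    rw [@norm_eq_sqrt_re_inner ℂ, @norm_eq_sqrt_re_inner ℂ, hP', hN', h1, h1, h]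
  obtain ⟨σ, hσ⟩ := P'.rangeRestrict.exists_rightInverse_of_surjective P'.range_rangeRestrict
  have hσ' : ∀ u : P'.range, P' (σ u) = u := fun u =>
    congrArg Subtype.val (LinearMap.congr_fun hσ u)
  let L₀ : P'.range →ₗᵢ[ℂ] EuclideanSpace ℂ m :=
    { toLinearMap := N' ∘ₗ σ
      norm_map' := fun u => by
        rw [LinearMap.comp_apply, hnorm, hσ']; rfl }
  have hL : ∀ c, L₀.extend (P' c) = N' c := by
    intro c
    have h1 := L₀.extend_apply ⟨P' c, LinearMap.mem_range_self _ c⟩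
    refine h1.trans ?_
    change N' (σ ⟨P' c, _⟩) = N' c
    rw [← sub_eq_zero, ← map_sub, ← norm_eq_zero, hnorm, map_sub, hσ', sub_self, norm_zero]
  refine ⟨Matrix.toEuclideanLin.symm L₀.extend.toLinearMap, ?_, ?_⟩
  · apply Matrix.toEuclideanLin.injective
    rw [Matrix.toLpLin_mul (q := 2), Matrix.toEuclideanLin_conjTranspose_eq_adjoint,
      LinearEquiv.apply_symm_apply]
    refine LinearMap.ext fun x => ext_inner_left ℂ fun y => ?_
    rw [LinearMap.comp_apply, LinearMap.adjoint_inner_right]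
    simp
  · apply Matrix.toEuclideanLin.injective
    rw [Matrix.toLpLin_mul (q := 2), LinearEquiv.apply_symm_apply]
    exact LinearMap.ext hL

theorem repr_functional {n : Type*} [Fintype n] [DecidableEq n] (g : Matrix n n ℂ →ₗ[ℝ] ℝ) :
    ∃ Z : Matrix n n ℂ, Z.IsHermitian ∧ ∀ H : Matrix n n ℂ, H.IsHermitian →
      g H = (Z * H).trace.re := by
  set Z₀ : Matrix n n ℂ := Matrix.of fun j i =>
    (g (Matrix.single i j 1) : ℂ) - I * g (Matrix.single i j I) with hZ₀
  have h0 : ∀ M : Matrix n n ℂ, g M = (Z₀ * M).trace.re := by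
    intro M
    conv_lhs => rw [Matrix.matrix_eq_sum_single M]
    simp only [map_sum, Matrix.trace, Matrix.diag_apply, Matrix.mul_apply, re_sum]
    rw [Finset.sum_comm]
    refine Finset.sum_congr rfl fun j _ => Finset.sum_congr rfl fun i _ => ?_
    have : Matrix.single i j (M i j) =
        (M i j).re • Matrix.single i j (1 : ℂ) + (M i j).im • Matrix.single i j I := by
      rw [Matrix.smul_single, Matrix.smul_single, ← Matrix.single_add]
      congr 1
      simp
    rw [this, map_add, map_smul, map_smul]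
    simp [hZ₀]
    ring
  refine ⟨(1 / 2 : ℝ) • (Z₀ + Z₀ᴴ), ?_, fun H hH => ?_⟩
  · simp [Matrix.IsHermitian, add_comm]
  · have h1 : (Z₀ᴴ * H).trace.re = (Z₀ * H).trace.re := by
      conv_lhs => rw [← hH.eq, ← Matrix.conjTranspose_mul, Matrix.trace_conjTranspose,
        Matrix.trace_mul_comm]
      simp
    rw [h0, Matrix.smul_mul, Matrix.add_mul, Matrix.trace_smul, Matrix.trace_add, smul_re, add_re,
      h1]
    simp only [smul_eq_mul]
    ring

/-- Matrices with positive definite Hermitian part. -/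
def PosRe (n : Type*) [Fintype n] : Set (Matrix n n ℂ) :=
  {M | ∀ x : n → ℂ, x ≠ 0 → 0 < (star x ⬝ᵥ M *ᵥ x).re}

theorem isOpen_posRe (n : Type*) [Fintype n] : IsOpen (PosRe n) := by
  have h1 : PosRe n = (Prod.fst '' {q : Matrix n n ℂ × sphere (0 : n → ℂ) 1 |
      (star (q.2 : n → ℂ) ⬝ᵥ q.1 *ᵥ (q.2 : n → ℂ)).re ≤ 0})ᶜ := by
    ext M
    simp only [PosRe, mem_ofPred_eq, mem_compl_iff, mem_image, Prod.exists, exists_and_right,
      exists_eq_right, not_exists, not_le]
    constructor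
    · intro h x
      refine h x fun h0 => ?_
      simpa [h0] using x.2
    · intro h x hx
      have hn : 0 < ‖x‖ := norm_pos_iff.2 hx
      have := h ⟨(‖x‖⁻¹ : ℝ) • x, by simp [norm_smul, hn.ne']⟩
      simp only [star_smul, star_trivial, Matrix.mulVec_smul, smul_dotProduct, dotProduct_smul,
        smul_re, smul_eq_mul] at this
      have h2 := inv_pos.2 hn
      exact (mul_pos_iff_of_pos_left h2).1 ((mul_pos_iff_of_pos_left h2).1 this)
  rw [h1, isOpen_compl_iff]
  refine isClosedMap_fst_of_compactSpace _ (isClosed_le ?_ continuous_const)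
  fun_prop

theorem convex_posRe (n : Type*) [Fintype n] : Convex ℝ (PosRe n) := by
  intro M hM N hN a b ha hb hab x hx
  have h1 := hM x hx
  have h2 := hN x hx
  simp only [Matrix.add_mulVec, Matrix.smul_mulVec, dotProduct_add, dotProduct_smul, add_re,
    smul_re, smul_eq_mul]
  rcases ha.eq_or_lt with rfl | ha'
  · obtain rfl : b = 1 := by linarith
    simpa using h2
  · positivity

theorem posDef_of_posRe {n : Type*} [Fintype n] {M : Matrix n n ℂ} (h : M ∈ PosRe n)
    (hM : M.IsHermitian) : M.PosDef :=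
  Matrix.PosDef.of_dotProduct_mulVec_pos hM fun x hx =>
    Complex.pos_iff.2 ⟨h x hx, (hM.im_star_dotProduct_mulVec_self x).symm⟩

theorem posRe_of_posDef {n : Type*} [Fintype n] {M : Matrix n n ℂ} (h : M.PosDef) :
    M ∈ PosRe n := fun _ hx => h.re_dotProduct_pos hx

theorem posSemidef_of_trace_bdd {n : Type*} [Fintype n] [DecidableEq n] {Z : Matrix n n ℂ}
    (hZ : Z.IsHermitian) {c : ℝ} (h : ∀ P : Matrix n n ℂ, P.PosDef → c ≤ (Z * P).trace.re) :
    Z.PosSemidef := by
  refine Matrix.PosSemidef.of_dotProduct_mulVec_nonneg hZ fun x =>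
    Complex.nonneg_iff.2 ⟨?_, (hZ.im_star_dotProduct_mulVec_self x).symm⟩
  by_contra hneg
  push Not at hneg
  set s := (star x ⬝ᵥ Z *ᵥ x).re with hs
  set t : ℝ := (|Z.trace.re - c| + 1) / (-s) with ht
  have ht0 : 0 ≤ t := div_nonneg (by positivity) (by linarith)
  have h1 := h (1 + t • Matrix.vecMulVec x (star x))
    (Matrix.PosDef.one.add_posSemidef ((Matrix.posSemidef_vecMulVec_self_star x).smul ht0))
  rw [mul_add, mul_one, Matrix.mul_smul, Matrix.trace_add, Matrix.trace_smul, add_re, smul_re,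
    Matrix.mul_vecMulVec, Matrix.trace_vecMulVec, dotProduct_comm, ← hs, smul_eq_mul] at h1
  have h2 : t * s = -(|Z.trace.re - c| + 1) := by
    rw [ht]; field_simp [hneg.ne]
  have := le_abs_self (Z.trace.re - c)
  linarith

local notation "Mat" n => Matrix (Fin n) (Fin n) ℂ

theorem dual_alternative {n : ℕ} (T : Matrix (Fin n) (Fin n) ℂ) (τ : ℝ)
    (h : ∀ H, ¬ MetricStrictlyFeasible T H τ) :
    ∃ X Y Z : Matrix (Fin n) (Fin n) ℂ, X.PosSemidef ∧ Y.PosSemidef ∧ Z.PosSemidef ∧
      T * Z * Tᴴ + Y = Z + X ∧ τ * Y.trace.re ≤ X.trace.re ∧ ¬ (X = 0 ∧ Y = 0 ∧ Z = 0) := by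
  set F : (Mat n) → (Mat n) × (Mat n) × (Mat n) := fun H => (H - 1, (τ : ℂ) • 1 - H, H - Tᴴ * H * T) with hF
  have hτ : ((τ : ℂ) • (1 : (Mat n))).IsHermitian := by simp [Matrix.IsHermitian]
  have hH3 : ∀ H : (Mat n), H.IsHermitian → (H - Tᴴ * H * T).IsHermitian := fun H hH =>
    hH.sub (Matrix.isHermitian_conjTranspose_mul_mul T hH)
  obtain ⟨f, u, hs, ht⟩ := geometric_hahn_banach_open
    (s := PosRe (Fin n) ×ˢ PosRe (Fin n) ×ˢ PosRe (Fin n)) (t := F '' {H | H.IsHermitian})
    ((convex_posRe _).prod ((convex_posRe _).prod (convex_posRe _)))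
    ((isOpen_posRe _).prod ((isOpen_posRe _).prod (isOpen_posRe _)))
    (by
      rintro _ ⟨H, hH, rfl⟩ _ ⟨K, hK, rfl⟩ a b ha hb hab
      refine ⟨a • H + b • K, ?_, ?_⟩
      · simp only [mem_ofPred_eq, Matrix.IsHermitian] at hH hK ⊢
        simp [hH, hK]
      · obtain rfl : b = 1 - a := by linarith
        simp only [hF, Prod.smul_mk, Prod.mk_add_mk, Matrix.mul_add, Matrix.add_mul,
          Matrix.mul_smul, Matrix.smul_mul, Prod.mk.injEq]
        refine ⟨by module, by module, by module⟩)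
    (by
      rw [Set.disjoint_right]
      rintro _ ⟨H, hH, rfl⟩ ⟨h1, h2, h3⟩
      exact h H ⟨posDef_of_posRe h1 (hH.sub Matrix.isHermitian_one),
        posDef_of_posRe h2 (hτ.sub hH), posDef_of_posRe h3 (hH3 H hH)⟩)
  obtain ⟨X, hX, hX'⟩ := repr_functional (-(f.toLinearMap ∘ₗ LinearMap.inl ℝ (Mat n) ((Mat n) × (Mat n))))
  obtain ⟨Y, hY, hY'⟩ := repr_functional
    (-(f.toLinearMap ∘ₗ LinearMap.inr ℝ (Mat n) ((Mat n) × (Mat n)) ∘ₗ LinearMap.inl ℝ (Mat n) (Mat n)))
  obtain ⟨Z, hZ, hZ'⟩ := repr_functional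
    (-(f.toLinearMap ∘ₗ LinearMap.inr ℝ (Mat n) ((Mat n) × (Mat n)) ∘ₗ LinearMap.inr ℝ (Mat n) (Mat n)))
  have hf : ∀ P Q R : (Mat n), P.IsHermitian → Q.IsHermitian → R.IsHermitian →
      f (P, Q, R) = -((X * P).trace.re + (Y * Q).trace.re + (Z * R).trace.re) := by
    intro P Q R hP hQ hR
    rw [← hX' P hP, ← hY' Q hQ, ← hZ' R hR]
    have : (P, Q, R) = (P, 0) + (0, Q, 0) + (0, 0, R) := by simp
    rw [this, map_add, map_add]
    simp [add_comm, add_left_comm]
  have hpos : ∀ P Q R : (Mat n), P.PosDef → Q.PosDef → R.PosDef →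
      -u < (X * P).trace.re + (Y * Q).trace.re + (Z * R).trace.re := by
    intro P Q R hP hQ hR
    have := hs (P, Q, R) ⟨posRe_of_posDef hP, posRe_of_posDef hQ, posRe_of_posDef hR⟩
    rw [hf P Q R hP.1 hQ.1 hR.1] at this
    linarith
  have h1 : (1 : (Mat n)).PosDef := Matrix.PosDef.one
  have hu : 0 ≤ u := by
    by_contra hu
    push Not at hu
    set c := X.trace.re + Y.trace.re + Z.trace.re with hc
    have hε : 0 < -u / (|c| + 1) := div_pos (by linarith) (by positivity)
    have h2 := hpos _ _ _ (h1.smul hε) (h1.smul hε) (h1.smul hε)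
    simp only [Matrix.mul_smul, mul_one, Matrix.trace_smul, smul_re, smul_eq_mul, ← mul_add,
      ← hc] at h2
    have h3 : -u / (|c| + 1) * c ≤ -u / (|c| + 1) * (|c| + 1) :=
      mul_le_mul_of_nonneg_left (by linarith [le_abs_self c]) hε.le
    rw [div_mul_cancel₀ _ (by positivity)] at h3
    linarith
  set J : (Mat n) := X - Y + Z - T * Z * Tᴴ with hJ
  have hJh : J.IsHermitian :=
    ((hX.sub hY).add hZ).sub (Matrix.isHermitian_mul_mul_conjTranspose T hZ)
  have haff : ∀ H : (Mat n), H.IsHermitian →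
      (J * H).trace.re - X.trace.re + τ * Y.trace.re ≤ -u := by
    intro H hH
    have h2 := ht _ ⟨H, hH, rfl⟩
    rw [hF, hf _ _ _ (hH.sub Matrix.isHermitian_one) (hτ.sub hH) (hH3 H hH)] at h2
    have h3 : (Z * (Tᴴ * H * T)).trace = (T * Z * Tᴴ * H).trace := by
      rw [← Matrix.mul_assoc, Matrix.trace_mul_comm]
      simp only [Matrix.mul_assoc]
    simp only [hJ, Matrix.mul_sub, Matrix.sub_mul, Matrix.add_mul, Matrix.mul_smul, mul_one,
      Matrix.trace_sub, Matrix.trace_add, Matrix.trace_smul, h3, sub_re, add_re, smul_eq_mul,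
      re_ofReal_mul] at h2 ⊢
    linarith
  have hJ0 : J = 0 := by
    by_contra hne
    have h2 : 0 < (J * J).trace.re := by
      have h3 : (Jᴴ * J).PosSemidef := Matrix.posSemidef_conjTranspose_mul_self J
      have h4 : (Jᴴ * J).trace ≠ 0 := fun h => hne (Matrix.trace_conjTranspose_mul_self_eq_zero_iff.1 h)
      rw [hJh.eq] at h3 h4
      exact (Complex.pos_iff.1 (lt_of_le_of_ne h3.trace_nonneg h4.symm)).1
    set c := X.trace.re - τ * Y.trace.re - u with hc
    have h3 := haff (((|c| + 1) / (J * J).trace.re) • J) (by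
      simp only [Matrix.IsHermitian, Matrix.conjTranspose_smul, star_trivial, hJh.eq])
    rw [Matrix.mul_smul, Matrix.trace_smul, smul_re, smul_eq_mul, div_mul_cancel₀ _ h2.ne'] at h3
    have := le_abs_self c
    linarith
  have h0 := haff 0 Matrix.isHermitian_zero
  simp only [mul_zero, Matrix.trace_zero, zero_re] at h0
  refine ⟨X, Y, Z,
    posSemidef_of_trace_bdd hX (c := -u - (Y * 1).trace.re - (Z * 1).trace.re) fun P hP => ?_,
    posSemidef_of_trace_bdd hY (c := -u - (X * 1).trace.re - (Z * 1).trace.re) fun P hP => ?_,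
    posSemidef_of_trace_bdd hZ (c := -u - (X * 1).trace.re - (Y * 1).trace.re) fun P hP => ?_,
    ?_, by linarith, ?_⟩
  · linarith [hpos P 1 1 hP h1 h1]
  · linarith [hpos 1 P 1 h1 hP h1]
  · linarith [hpos 1 1 P h1 h1 hP]
  · rw [← sub_eq_zero, ← neg_eq_zero, ← hJ0, hJ]
    abel
  · rintro ⟨rfl, rfl, rfl⟩
    have h2 := hpos 1 1 1 h1 h1 h1
    simp at h0 h2
    linarith

end Crest.Agent.R132
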