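import Mathlib
import Crest.Agent.R132.Dual

/-! The metric problem is strictly feasible for every `τ > 4`. -/

open Set Filter Metric Function Complex
open scoped Topology ComplexConjugate ComplexOrder Matrix InnerProductSpace
open Crest.AnalysisR.NumRange

namespace Crest.Agent.R132

local notation "Mat" n => Matrix (Fin n) (Fin n) ℂ

/-- Rows of a matrix as a tuple of Euclidean vectors. -/
noncomputable def rowsEquiv (ι : Type*) (n : ℕ) :
    Matrix ι (Fin n) ℂ ≃ₗ[ℂ] PiLp 2 (fun _ : ι => EuclideanSpace ℂ (Fin n)) where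
  toFun X := WithLp.toLp 2 fun i => WithLp.toLp 2 (X i)
  invFun v := Matrix.of fun i j => v i j
  map_add' _ _ := rfl
  map_smul' _ _ := rfl
  left_inv _ := rfl
  right_inv _ := rfl

theorem norm_rowsEquiv {ι : Type*} [Fintype ι] {n : ℕ} (X : Matrix ι (Fin n) ℂ) :
    ‖rowsEquiv ι n X‖ ^ 2 = (Xᴴ * X).trace.re := by
  rw [PiLp.norm_sq_eq_of_L2]
  simp only [EuclideanSpace.norm_sq_eq, Matrix.trace, Matrix.diag_apply, Matrix.mul_apply, re_sum,
    Matrix.conjTranspose_apply]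
  rw [Finset.sum_comm]
  refine Finset.sum_congr rfl fun j _ => Finset.sum_congr rfl fun i _ => ?_
  change ‖X i j‖ ^ 2 = _
  rw [star_def, ← normSq_eq_conj_mul_self, ofReal_re, normSq_eq_norm_sq]

theorem rowsEquiv_mul {ι : Type*} {n : ℕ} (A : Mat n) (Y : Matrix ι (Fin n) ℂ) (i : ι) :
    rowsEquiv ι n (Y * Aᵀ) i =
      Matrix.toEuclideanCLM (n := Fin n) (𝕜 := ℂ) A (rowsEquiv ι n Y i) := by
  ext j
  simp [rowsEquiv, Matrix.mul_apply, Matrix.mulVec, dotProduct, mul_comm]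

theorem rowsEquiv_mul' {ι : Type*} [Fintype ι] {n : ℕ} (Φ : Matrix ι ι ℂ)
    (Y : Matrix ι (Fin n) ℂ) (i : ι) :
    rowsEquiv ι n (Φ * Y) i = ∑ j, Φ i j • rowsEquiv ι n Y j := by
  ext j
  simp [rowsEquiv, Matrix.mul_apply]

theorem exists_clm {E ι : Type*} [NormedAddCommGroup E] [InnerProductSpace ℂ E]
    [FiniteDimensional ℂ E] [Fintype ι]
    (L : PiLp 2 (fun _ : ι => E) →ₗ[ℂ] PiLp 2 (fun _ : ι => E)) :
    ∃ T : PiLp 2 (fun _ : ι => E) →L[ℂ] PiLp 2 (fun _ : ι => E), ∀ v, T v = L v :=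
  ⟨LinearMap.toContinuousLinearMap L, fun _ => rfl⟩

theorem mat_bound {n : ℕ} {ι : Type*} [Fintype ι] [DecidableEq ι] {A : Mat n} {Ω : Set ℂ}
    (hΩ : IsOpen Ω) (hΩc : Convex ℝ Ω) (hA : numRange A ⊆ Ω) {Φ : ℂ → Matrix ι ι ℂ}
    (hM : ∀ z ∈ Ω, ‖Matrix.toEuclideanCLM (n := ι) (𝕜 := ℂ) (Φ z)‖ ≤ 1)
    (T : Matrix ι (Fin n) ℂ →ₗ[ℂ] Matrix ι (Fin n) ℂ) (hcomm : ∀ X, T (X * Aᵀ) = T X * Aᵀ)
    (hdiv : ∀ X, ∃ e : ℂ → Matrix ι (Fin n) ℂ, MDiff e Ω ∧
      ∀ z ∈ Ω, Φ z * X - T X = e z * (z • 1 - Aᵀ)) (X : Matrix ι (Fin n) ℂ) :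
    ((T X)ᴴ * T X).trace.re ≤ 4 * (Xᴴ * X).trace.re := by
  obtain ⟨T', hT'⟩ : ∃ T' : PiLp 2 (fun _ : ι => EuclideanSpace ℂ (Fin n)) →L[ℂ]
      PiLp 2 (fun _ : ι => EuclideanSpace ℂ (Fin n)), ∀ Y, T' (rowsEquiv ι n Y) =
        rowsEquiv ι n (T Y) := by
    obtain ⟨T', hT'⟩ := exists_clm ((rowsEquiv ι n).toLinearMap ∘ₗ T ∘ₗ
      (rowsEquiv ι n).symm.toLinearMap)
    exact ⟨T', fun Y => by simp [hT']⟩
  have hA' : nr (Matrix.toEuclideanCLM (n := Fin n) (𝕜 := ℂ) A) ⊆ Ω := by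
    rintro _ ⟨x, hx, rfl⟩
    exact hA ⟨x, hx, rfl⟩
  have h := block_bound hΩ hΩc hA' hM T' (fun v i => ?_) (fun v i => ?_) (rowsEquiv ι n X)
  · rw [hT'] at h
    rw [← norm_rowsEquiv, ← norm_rowsEquiv]
    have := pow_le_pow_left₀ (norm_nonneg _) h 2
    linarith
  · obtain ⟨Y, hY⟩ := (rowsEquiv ι n).surjective (WithLp.toLp 2 v)
    have h1 : (WithLp.toLp 2 fun j => Matrix.toEuclideanCLM (n := Fin n) (𝕜 := ℂ) A (v j)) =
        rowsEquiv ι n (Y * Aᵀ) := by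
      ext1 j
      rw [rowsEquiv_mul, hY]
    rw [h1, ← hY, hT', hT', hcomm, rowsEquiv_mul]
  · obtain ⟨Y, rfl⟩ := (rowsEquiv ι n).surjective v
    obtain ⟨e, he, he'⟩ := hdiv Y
    refine ⟨fun z => rowsEquiv ι n (e z) i, ?_, fun z hz => ?_⟩
    · rw [differentiableOn_euclidean]
      exact fun j => he i j
    · have h1 := congrArg (fun Y => rowsEquiv ι n Y i) (he' z hz)
      simp only [Matrix.mul_sub, Matrix.mul_smul, Matrix.mul_one, map_sub, map_smul, PiLp.sub_apply,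
        PiLp.smul_apply, rowsEquiv_mul, rowsEquiv_mul'] at h1
      rw [← h1, hT']

open scoped Matrix.Norms.L2Operator in
theorem exists_pow_norm_lt {n : ℕ} (hn : 1 ≤ n) {T : Mat n}
    (hT : ∀ w ∈ spectrum ℂ T, ‖w‖ < 1) : ∃ k : ℕ, ‖T ^ k‖ < 1 := by
  have : Nonempty (Fin n) := ⟨⟨0, hn⟩⟩
  have h1 : spectralRadius ℂ T < (1 : NNReal) :=
    spectrum.spectralRadius_lt_of_forall_lt T fun z hz => by exact_mod_cast hT z hz
  have h2 := (spectrum.pow_nnnorm_pow_one_div_tendsto_nhds_spectralRadius T).eventually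
    (gt_mem_nhds h1)
  obtain ⟨k, hk, hk1⟩ := (h2.and (eventually_gt_atTop 0)).exists
  refine ⟨k, ?_⟩
  by_contra hc
  push Not at hc
  refine absurd hk (not_lt.2 ?_)
  refine ENNReal.one_le_rpow ?_ (by positivity)
  exact_mod_cast hc

/-- The transfer function of a unitary colligation is contractive on the disc. -/
theorem transfer_aux {ι : Type*} [Fintype ι] [DecidableEq ι] {a b c d : Matrix ι ι ℂ}
    (hW : (Matrix.fromBlocks a b c d)ᴴ * Matrix.fromBlocks a b c d = 1)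
    (x y : EuclideanSpace ℂ ι) :
    ‖Matrix.toEuclideanLin a x + Matrix.toEuclideanLin b y‖ ^ 2 +
      ‖Matrix.toEuclideanLin c x + Matrix.toEuclideanLin d y‖ ^ 2 = ‖x‖ ^ 2 + ‖y‖ ^ 2 := by
  set W := Matrix.fromBlocks a b c d with hWd
  set u : EuclideanSpace ℂ (ι ⊕ ι) := WithLp.toLp 2 (Sum.elim x y) with hu
  have h1 : ‖Matrix.toEuclideanLin W u‖ ^ 2 = ‖u‖ ^ 2 := by
    rw [@norm_sq_eq_re_inner ℂ, @norm_sq_eq_re_inner ℂ, ← LinearMap.adjoint_inner_right,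
      ← Matrix.toEuclideanLin_conjTranspose_eq_adjoint, ← LinearMap.comp_apply,
      ← Matrix.toLpLin_mul, hW, Matrix.toLpLin_one, LinearMap.id_apply]
  simp only [EuclideanSpace.norm_sq_eq, Fintype.sum_sum_type] at h1 ⊢
  simpa [hWd, hu, Matrix.fromBlocks_mulVec] using h1

theorem transfer_a {ι : Type*} [Fintype ι] [DecidableEq ι] {a b c d : Matrix ι ι ℂ}
    (hW : (Matrix.fromBlocks a b c d)ᴴ * Matrix.fromBlocks a b c d = 1)
    (x : EuclideanSpace ℂ ι) : ‖Matrix.toEuclideanLin a x‖ ≤ ‖x‖ := by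
  have h := transfer_aux hW x 0
  simp only [map_zero, add_zero, norm_zero] at h
  refine le_of_sq_le_sq ?_ (norm_nonneg _)
  nlinarith [sq_nonneg ‖Matrix.toEuclideanLin c x‖]

theorem transfer_det {ι : Type*} [Fintype ι] [DecidableEq ι] {a b c d : Matrix ι ι ℂ}
    (hW : (Matrix.fromBlocks a b c d)ᴴ * Matrix.fromBlocks a b c d = 1) {w : ℂ} (hw : ‖w‖ < 1) :
    (1 - w • a).det ≠ 0 := by
  intro h
  obtain ⟨x, hx0, hx⟩ := Matrix.exists_mulVec_eq_zero_iff.2 h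
  set u : EuclideanSpace ℂ ι := WithLp.toLp 2 x with hu
  have h1 : u = w • Matrix.toEuclideanLin a u := by
    rw [Matrix.sub_mulVec, Matrix.one_mulVec, Matrix.smul_mulVec, sub_eq_zero] at hx
    ext i
    simpa [hu] using congrFun hx i
  have h2 : 0 < ‖u‖ := norm_pos_iff.2 fun h => hx0 (by simpa [hu] using h)
  have h3 := congrArg norm h1
  rw [norm_smul] at h3
  have h4 := transfer_a hW u
  nlinarith [norm_nonneg w]

theorem transfer_norm {ι : Type*} [Fintype ι] [DecidableEq ι] {a b c d : Matrix ι ι ℂ}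
    (hW : (Matrix.fromBlocks a b c d)ᴴ * Matrix.fromBlocks a b c d = 1) {w : ℂ} (hw : ‖w‖ < 1) :
    ‖Matrix.toEuclideanCLM (n := ι) (𝕜 := ℂ) (d + w • (c * (1 - w • a)⁻¹ * b))‖ ≤ 1 := by
  refine ContinuousLinearMap.opNorm_le_bound _ zero_le_one fun y => ?_
  set x := Matrix.toEuclideanLin ((1 - w • a)⁻¹ * b) y with hx
  have h1 : Matrix.toEuclideanLin a (w • x) + Matrix.toEuclideanLin b y = x := by
    have h2 : (1 - w • a) * ((1 - w • a)⁻¹ * b) = b :=
      Matrix.mul_nonsing_inv_cancel_left _ _ (Ne.isUnit (transfer_det hW hw))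
    have h3 := congrArg (fun M => Matrix.toEuclideanLin M y) h2
    simp only [Matrix.toLpLin_mul_same, LinearMap.comp_apply, map_sub, map_smul,
      Matrix.toLpLin_one, LinearMap.sub_apply, LinearMap.id_apply, LinearMap.smul_apply] at h3
    rw [← h3, hx]
    simp
  have h2 : Matrix.toEuclideanLin c (w • x) + Matrix.toEuclideanLin d y =
      Matrix.toEuclideanCLM (n := ι) (𝕜 := ℂ) (d + w • (c * (1 - w • a)⁻¹ * b)) y := by
    change _ = Matrix.toEuclideanLin (d + w • (c * (1 - w • a)⁻¹ * b)) y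
    rw [add_comm]
    simp [hx]
  have h3 := transfer_aux hW (w • x) y
  rw [h1, h2, norm_smul, mul_pow] at h3
  rw [one_mul]
  refine le_of_sq_le_sq ?_ (norm_nonneg _)
  have h4 : ‖w‖ ^ 2 ≤ 1 := pow_le_one₀ (norm_nonneg _) hw.le
  nlinarith [sq_nonneg ‖x‖]

open scoped Matrix.Norms.L2Operator in
theorem eq_zero_of_fixed {n : ℕ} (hn : 1 ≤ n) {S a X : Mat n} (hS : ∀ w ∈ spectrum ℂ S, ‖w‖ < 1)
    (ha : ∀ x, ‖Matrix.toEuclideanLin a x‖ ≤ ‖x‖) (hX : a * X * S = X) : X = 0 := by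
  obtain ⟨k, hk⟩ := exists_pow_norm_lt hn hS
  have ha' : ‖a‖ ≤ 1 := by
    rw [Matrix.cstar_norm_def]
    exact ContinuousLinearMap.opNorm_le_bound _ zero_le_one fun y => (ha y).trans_eq (one_mul _).symm
  have h1 : ∀ j : ℕ, ‖X‖ ≤ ‖X * S ^ j‖ := by
    intro j
    induction j with
    | zero => simp
    | succ j ih =>
      refine ih.trans ?_
      conv_lhs => rw [← hX]
      rw [mul_assoc, mul_assoc, ← pow_succ']
      exact (norm_mul_le _ _).trans (mul_le_of_le_one_left (norm_nonneg _) ha')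
  have h2 := (h1 k).trans (norm_mul_le _ _)
  by_contra hne
  have := norm_pos_iff.2 hne
  nlinarith

open scoped MatrixOrder in
theorem exists_sqrt {n : ℕ} {X : Mat n} (hX : X.PosSemidef) : ∃ B : Mat n, X = Bᴴ * B :=
  CStarAlgebra.nonneg_iff_eq_star_mul_self.1 hX.nonneg

theorem strictlyFeasible {n : ℕ} (hn : 1 ≤ n) {A : Mat n} {Ω U : Set ℂ} (hΩ : IsOpen Ω)
    (hΩc : Convex ℝ Ω) (hΩU : Ω ⊆ U) {f : ℂ → ℂ} (hf : DifferentiableOn ℂ f U)
    (hf₃ : f '' Ω = ball 0 1) (hA : numRange A ⊆ Ω) {p : Polynomial ℂ}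
    (hp : AgreesOnSpectrum A f p) {τ : ℝ} (hτ : 4 < τ) :
    ∃ H, MetricStrictlyFeasible (Polynomial.aeval A p) H τ := by
  by_contra hcon
  push Not at hcon
  set T := Polynomial.aeval A p with hT
  have hσ : spectrum ℂ A ⊆ Ω := (spectrum_subset_numRange A).trans hA
  have hTσ : ∀ w ∈ spectrum ℂ Tᵀ, ‖w‖ < 1 := by
    intro w hw
    rw [Matrix.mem_spectrum_iff_isRoot_charpoly, Matrix.charpoly_transpose,
      ← Matrix.mem_spectrum_iff_isRoot_charpoly] at hw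
    exact spectrum_aeval_lt hn hf₃ hσ hp w hw
  have hAT : Commute Aᵀ Tᵀ := by
    have : Commute T A := by
      rw [hT]
      simpa using (Polynomial.commute_X p).map (Polynomial.aeval A) |>.symm
    rw [Commute, SemiconjBy, ← Matrix.transpose_mul, ← Matrix.transpose_mul, this.eq]
  obtain ⟨E, hE, hE'⟩ := calc_div A hΩ hσ (hf.mono hΩU) hp
  obtain ⟨X, Y, Z, hX, hY, hZ, hG, htr, hne⟩ := dual_alternative T τ hcon
  obtain ⟨ξ, hξ⟩ := exists_sqrt hX.transpose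
  obtain ⟨η, hη⟩ := exists_sqrt hY.transpose
  obtain ⟨ζ, hζ⟩ := exists_sqrt hZ.transpose
  obtain ⟨W, hW, hWP⟩ := exists_unitary_of_gram (Matrix.fromRows (ζ * Tᵀ) η)
    (Matrix.fromRows ζ ξ) (by
      simp only [Matrix.conjTranspose_fromRows_eq_fromCols_conjTranspose,
        Matrix.fromCols_mul_fromRows, ← hξ, ← hη, ← hζ]
      rw [← Matrix.transpose_add, ← hG, Matrix.transpose_add, Matrix.transpose_mul,
        Matrix.transpose_mul, hζ, Matrix.conjTranspose_mul]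
      simp only [Matrix.mul_assoc]
      rfl)
  obtain ⟨a, b, c, d, rfl⟩ : ∃ a b c d, W = Matrix.fromBlocks a b c d :=
    ⟨_, _, _, _, (Matrix.fromBlocks_toBlocks W).symm⟩
  rw [Matrix.fromBlocks_mul_fromRows, Matrix.fromRows_ext_iff] at hWP
  obtain ⟨h1, h2⟩ := hWP
  let L : (Mat n) →ₗ[ℂ] (Mat n) :=
    LinearMap.id - LinearMap.mulRight ℂ Tᵀ ∘ₗ LinearMap.mulLeft ℂ a
  have hL : ∀ V, L V = V - a * V * Tᵀ := fun V => rfl
  have hinj : Injective L := by
    rw [injective_iff_map_eq_zero]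
    intro V hV
    rw [hL, sub_eq_zero] at hV
    exact eq_zero_of_fixed hn hTσ (transfer_a hW) hV.symm
  let L' := LinearEquiv.ofInjectiveEndo L hinj
  have hL' : ∀ V, L' V = V - a * V * Tᵀ := fun V => rfl
  let Φ : (Mat n) →ₗ[ℂ] (Mat n) := LinearMap.mulLeft ℂ d +
    LinearMap.mulRight ℂ Tᵀ ∘ₗ LinearMap.mulLeft ℂ c ∘ₗ L'.symm.toLinearMap ∘ₗ LinearMap.mulLeft ℂ b
  have hΦ : ∀ V, Φ V = d * V + c * L'.symm (b * V) * Tᵀ := fun V => rfl
  have hζ' : L'.symm (b * η) = ζ := by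
    rw [LinearEquiv.symm_apply_eq, hL', eq_sub_iff_add_eq', mul_assoc, h1]
  have hΦη : Φ η = ξ := by rw [hΦ, hζ', mul_assoc, add_comm, h2]
  have hfz : ∀ z ∈ Ω, ‖f z‖ < 1 := fun z hz => by
    have : f z ∈ ball (0 : ℂ) 1 := hf₃ ▸ mem_image_of_mem f hz
    simpa using this
  have key := mat_bound hΩ hΩc hA (Φ := fun z => d + f z • (c * (1 - f z • a)⁻¹ * b))
    (fun z hz => transfer_norm hW (hfz z hz)) Φ (fun V => ?_) (fun V => ?_) η
  · rw [hΦη, ← hξ, ← hη, Matrix.trace_transpose, Matrix.trace_transpose] at key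
    have hY0 : 0 ≤ Y.trace.re := (Complex.nonneg_iff.1 hY.trace_nonneg).1
    have hY1 : Y.trace.re = 0 := by nlinarith
    have hY2 : Y = 0 := hY.trace_eq_zero_iff.1
      (Complex.ext hY1 (Complex.nonneg_iff.1 hY.trace_nonneg).2.symm)
    have hη0 : η = 0 := by
      rw [hY2, Matrix.transpose_zero] at hη
      exact Matrix.conjTranspose_mul_self_eq_zero.1 hη.symm
    have hξ0 : ξ = 0 := by rw [← hΦη, hη0, map_zero]
    have hζ0 : ζ = 0 := by rw [← hζ', hη0, mul_zero, map_zero]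
    refine hne ⟨?_, hY2, ?_⟩
    · simpa [hξ0] using hξ
    · simpa [hζ0] using hζ
  · have h3 : L'.symm (b * (V * Aᵀ)) = L'.symm (b * V) * Aᵀ := by
      rw [LinearEquiv.symm_apply_eq, hL', ← mul_assoc, ← mul_assoc, mul_assoc _ Aᵀ, hAT.eq,
        ← mul_assoc, ← sub_mul, ← hL', LinearEquiv.apply_symm_apply]
    rw [hΦ, hΦ, h3, add_mul]
    simp only [mul_assoc, hAT.eq]
  · set V' := L'.symm (b * V) with hV'
    have h3 : b * V = V' - a * V' * Tᵀ := by rw [← hL', hV', LinearEquiv.apply_symm_apply]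
    refine ⟨fun z => c * (1 - f z • a)⁻¹ * V' * (E z)ᵀ, ?_, fun z hz => ?_⟩
    · refine (((MDiff.const _).mul (MDiff.inv ?_ fun z hz => transfer_det hW (hfz z hz))).mul
        (MDiff.const _)).mul fun i j => hE j i
      exact (MDiff.const _).sub (MDiff.smul (hf.mono hΩU) (MDiff.const _))
    · have h4 := congrArg Matrix.transpose (hE' z hz).2
      simp only [Matrix.transpose_sub, Matrix.transpose_smul, Matrix.transpose_one,
        Matrix.transpose_mul, ← hT] at h4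
      have h5 : (1 - f z • a)⁻¹ * (1 - f z • a) = 1 :=
        Matrix.nonsing_inv_mul _ (Ne.isUnit (transfer_det hW (hfz z hz)))
      set R := (1 - f z • a)⁻¹ with hR
      rw [mul_assoc _ (E z)ᵀ, ← h4, hΦ, ← hV', add_mul, smul_mul_assoc, mul_assoc _ b, h3]
      have h6 : c * V' * Tᵀ = c * (R * (1 - f z • a)) * V' * Tᵀ := by rw [h5, mul_one]
      rw [h6]
      simp only [mul_sub, sub_mul, mul_smul_comm, smul_mul_assoc, mul_one, mul_assoc, smul_sub]
      abel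

theorem isClosed_posSemidef (n : ℕ) : IsClosed {M : Mat n | M.PosSemidef} := by
  simp only [Matrix.posSemidef_iff_dotProduct_mulVec, Matrix.IsHermitian, ofPred_and,
    ofPred_forall]
  exact (isClosed_eq (by fun_prop) continuous_id).inter
    (isClosed_iInter fun x => isClosed_le continuous_const (by fun_prop))

open scoped MatrixOrder Matrix.Norms.L2Operator in
theorem exists_optimal {n : ℕ} (hn : 1 ≤ n) {T H₀ : Mat n} {τ₀ : ℝ} (h₀ : MetricFeasible T H₀ τ₀) :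
    ∃ H κ, IsOptimalMetric T H κ ∧ 1 ≤ κ := by
  have h1 : ∀ H τ, MetricFeasible T H τ → 1 ≤ τ := by
    intro H τ h
    have h2 := (h.1.add h.2.1).diag_nonneg (i := ⟨0, hn⟩)
    simp only [sub_add_sub_cancel', Matrix.sub_apply, Matrix.smul_apply, Matrix.one_apply_eq,
      smul_eq_mul, mul_one, sub_nonneg] at h2
    exact_mod_cast h2
  set K : Set ((Mat n) × ℝ) := {q | MetricFeasible T q.1 q.2 ∧ q.2 ≤ τ₀} with hK
  have hc : IsClosed K := by
    refine IsClosed.inter (IsClosed.inter ?_ (IsClosed.inter ?_ ?_))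
      (isClosed_le continuous_snd continuous_const)
    · exact (isClosed_posSemidef n).preimage (f := fun q : (Mat n) × ℝ => q.1 - 1) (by fun_prop)
    · exact (isClosed_posSemidef n).preimage
        (f := fun q : (Mat n) × ℝ => (q.2 : ℂ) • (1 : Mat n) - q.1) (by fun_prop)
    · exact (isClosed_posSemidef n).preimage
        (f := fun q : (Mat n) × ℝ => q.1 - Tᴴ * q.1 * T) (by fun_prop)
  have hK' : IsCompact K := by
    refine ((isCompact_closedBall (0 : Mat n) (‖(τ₀ : ℂ) • (1 : Mat n)‖)).prod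
      (isCompact_Icc (a := 1) (b := τ₀))).of_isClosed_subset hc ?_
    rintro ⟨H, τ⟩ ⟨h, hτ⟩
    refine ⟨?_, h1 H τ h, hτ⟩
    rw [mem_closedBall, dist_zero_right]
    refine CStarAlgebra.norm_le_norm_of_nonneg_of_le ?_ ?_
    · simpa using (h.1.add Matrix.PosSemidef.one).nonneg
    · have h2 : (((τ₀ - τ : ℝ) : ℂ) • (1 : Mat n)).PosSemidef :=
        Matrix.PosSemidef.one.smul (by exact_mod_cast sub_nonneg.2 hτ)
      have h3 := h.2.1.add h2
      have h4 : (τ : ℂ) • (1 : Mat n) - H + ((τ₀ - τ : ℝ) : ℂ) • (1 : Mat n) =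
          (τ₀ : ℂ) • (1 : Mat n) - H := by
        push_cast
        module
      rwa [h4] at h3
  obtain ⟨⟨H, κ⟩, ⟨hH, hκ⟩, hmin⟩ := hK'.exists_isMinOn ⟨(H₀, τ₀), h₀, le_rfl⟩
    continuous_snd.continuousOn
  refine ⟨H, κ, ⟨hH, fun H' τ' h' => ?_⟩, h1 H κ hH⟩
  rcases le_total τ' τ₀ with h | h
  · exact hmin (show (H', τ') ∈ K from ⟨h', h⟩)
  · exact hκ.trans h

end Crest.Agent.R132
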