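import Mathlib
import Crest.Agent.R132.Curve
import Crest.Agent.R132.Metric

/-! The boundary density. -/

open Set Filter Metric Function Complex Polynomial
open scoped Topology ComplexConjugate ComplexOrder Matrix Real Kronecker
open Crest.AnalysisR.NumRange

namespace Crest.Agent.R132

local notation "Mat" n => Matrix (Fin n) (Fin n) ℂ

/-- Entrywise integral over a period. -/
noncomputable def mint {ι κ : Type*} (M : ℝ → Matrix ι κ ℂ) : Matrix ι κ ℂ :=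
  Matrix.of fun a b => ∫ θ in (0 : ℝ)..2 * π, M θ a b

section mint

variable {ι κ : Type*}

theorem mint_add {M N : ℝ → Matrix ι κ ℂ} (hM : Continuous M) (hN : Continuous N) :
    mint (fun θ => M θ + N θ) = mint M + mint N := by
  ext a b
  exact intervalIntegral.integral_add ((hM.matrix_elem a b).intervalIntegrable _ _)
    ((hN.matrix_elem a b).intervalIntegrable _ _)

theorem mint_mul [Fintype κ] {M : ℝ → Matrix ι κ ℂ} (hM : Continuous M) (C : Matrix κ κ ℂ) :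
    mint (fun θ => M θ * C) = mint M * C := by
  ext a b
  simp only [mint, Matrix.of_apply, Matrix.mul_apply]
  rw [intervalIntegral.integral_finsetSum fun k _ =>
    ((hM.matrix_elem a k).mul_const _).intervalIntegrable _ _]
  simp only [intervalIntegral.integral_mul_const]

theorem mint_conjTranspose (M : ℝ → Matrix ι κ ℂ) : mint (fun θ => (M θ)ᴴ) = (mint M)ᴴ := by
  ext a b
  simp only [mint, Matrix.of_apply, Matrix.conjTranspose_apply, star_def,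
    intervalIntegral.integral_of_le Real.two_pi_pos.le, integral_conj]

theorem mint_smul (ρ : ℝ → ℝ) (C : Matrix ι κ ℂ) :
    mint (fun θ => (ρ θ : ℂ) • C) = ((∫ θ in (0 : ℝ)..2 * π, ρ θ : ℝ) : ℂ) • C := by
  ext a b
  simp only [mint, Matrix.of_apply, Matrix.smul_apply, smul_eq_mul,
    intervalIntegral.integral_mul_const, intervalIntegral.integral_ofReal]

theorem mint_dot [Fintype ι] [Fintype κ] {M : ℝ → Matrix ι κ ℂ} (hM : Continuous M) (y : ι → ℂ)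
    (x : κ → ℂ) : (y ⬝ᵥ mint M *ᵥ x).re = ∫ θ in (0 : ℝ)..2 * π, (y ⬝ᵥ M θ *ᵥ x).re := by
  have h1 : y ⬝ᵥ mint M *ᵥ x = ∫ θ in (0 : ℝ)..2 * π, (y ⬝ᵥ M θ *ᵥ x) := by
    simp only [mint, dotProduct, Matrix.mulVec, Matrix.of_apply]
    rw [intervalIntegral.integral_finsetSum fun k _ => Continuous.intervalIntegrable (by
      fun_prop) _ _]
    refine Finset.sum_congr rfl fun i _ => ?_
    rw [intervalIntegral.integral_const_mul, intervalIntegral.integral_finsetSum fun k _ =>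
      ((hM.matrix_elem i k).mul_const _).intervalIntegrable _ _]
    simp only [intervalIntegral.integral_mul_const]
  rw [h1]
  exact (reCLM.intervalIntegral_comp_comm (Continuous.intervalIntegrable (by fun_prop) _ _)).symm

theorem mint_holo {K V : Set ℂ} (hK : IsCompact K) (hKc : Convex ℝ K) (hV : IsOpen V)
    (hKV : K ⊆ V) {E : ℂ → Matrix ι κ ℂ} (hE : MDiff E V) {γ γ' : ℝ → ℂ}
    (hγ : ∀ θ, HasDerivAt γ (γ' θ) θ) (hc : Continuous γ') (hγK : ∀ θ, γ θ ∈ K)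
    (hp : γ (2 * π) = γ 0) : mint (fun θ => γ' θ • E (γ θ)) = 0 := by
  ext a b
  exact closed_integral hK hKc hV hKV (hE a b) hγ hc hγK hp

end mint

theorem continuous_inv {ι X : Type*} [Fintype ι] [DecidableEq ι] [TopologicalSpace X]
    {M : X → Matrix ι ι ℂ} (hM : Continuous M) (h0 : ∀ x, (M x).det ≠ 0) :
    Continuous fun x => (M x)⁻¹ := by
  simp only [Matrix.inv_def, Ring.inverse_eq_inv']
  exact (hM.matrix_det.inv₀ h0).smul hM.matrix_adjugate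

variable {n : ℕ}

theorem det_sub_ne_zero {T : Mat n} (hT : ∀ w ∈ spectrum ℂ T, ‖w‖ < 1) {w : ℂ} (hw : 1 ≤ ‖w‖) :
    (w • 1 - T).det ≠ 0 := by
  have h : w ∉ spectrum ℂ T := fun h => (hT w h).not_ge hw
  rw [spectrum.notMem_iff, Algebra.algebraMap_eq_smul_one, Matrix.isUnit_iff_isUnit_det] at h
  exact h.ne_zero

theorem det_one_sub_ne_zero {T : Mat n} (hT : ∀ w ∈ spectrum ℂ T, ‖w‖ < 1) {w : ℂ}
    (hw : ‖w‖ ≤ 1) : (1 - w • Tᴴ).det ≠ 0 := by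
  by_cases h0 : w = 0
  · simp [h0]
  have h1 := det_sub_ne_zero hT (w := conj w⁻¹) (by
    rw [norm_conj, norm_inv]
    exact (one_le_inv₀ (norm_pos_iff.2 h0)).2 hw)
  have h2 : 1 - w • Tᴴ = w • (conj w⁻¹ • (1 : Mat n) - T)ᴴ := by
    simp [smul_sub, smul_smul, mul_inv_cancel₀ h0]
  rw [h2, Matrix.det_smul, Matrix.det_conjTranspose]
  exact mul_ne_zero (pow_ne_zero _ h0) (star_ne_zero.2 h1)

/-- The Poisson kernel of a matrix. -/
noncomputable def pk (T : Mat n) (w : ℂ) : Mat n :=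
  ((w • 1 - T)⁻¹)ᴴ * (1 - Tᴴ * T) * (w • 1 - T)⁻¹

theorem pk_facts {T : Mat n} (hT : ∀ w ∈ spectrum ℂ T, ‖w‖ < 1) {w : ℂ} (hw : ‖w‖ = 1) :
    pk T w = w • (w • 1 - T)⁻¹ + w • (Tᴴ * (1 - w • Tᴴ)⁻¹) ∧
      w • (w • 1 - T)⁻¹ = 1 + (w • (Tᴴ * (1 - w • Tᴴ)⁻¹))ᴴ := by
  have hd := (det_sub_ne_zero hT hw.ge).isUnit
  have hww : conj w * w = 1 := by rw [conj_mul', hw]; simp
  have hww' : w * conj w = 1 := by rw [mul_comm, hww]
  set R := (w • (1 : Mat n) - T)⁻¹ with hR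
  have h1 : R * (w • 1 - T) = 1 := Matrix.nonsing_inv_mul _ hd
  have h2 : (w • 1 - T) * R = 1 := Matrix.mul_nonsing_inv _ hd
  have h3 : T * R = w • R - 1 := by
    rw [← h2, sub_mul, smul_mul_assoc, one_mul, sub_sub_cancel]
  have h3' : R * T = w • R - 1 := by
    rw [← h1, mul_sub, mul_smul_comm, mul_one, sub_sub_cancel]
  have h4 : Rᴴ * Tᴴ = conj w • Rᴴ - 1 := by
    rw [← Matrix.conjTranspose_mul, h3]; simp
  have h4' : Tᴴ * Rᴴ = conj w • Rᴴ - 1 := by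
    rw [← Matrix.conjTranspose_mul, h3']; simp
  have h5 : (1 - w • Tᴴ)⁻¹ = conj w • Rᴴ := by
    refine Matrix.inv_eq_right_inv ?_
    rw [sub_mul, one_mul, smul_mul_smul_comm, hww', one_smul, h4', sub_sub_cancel]
  have h6 : w • (Tᴴ * (1 - w • Tᴴ)⁻¹) = conj w • Rᴴ - 1 := by
    rw [h5, mul_smul_comm, smul_smul, hww', one_smul, h4']
  rw [h6]
  refine ⟨?_, by simp⟩
  rw [pk, ← hR, mul_sub, mul_one, sub_mul, ← mul_assoc, mul_assoc _ T, h3, h4, sub_mul, mul_sub,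
    smul_mul_smul_comm, hww, one_smul, one_mul, mul_one]
  abel

theorem density_repr {A : Mat n} {K U : Set ℂ} (hK : IsCompact K) (hKc : Convex ℝ K)
    (hU : IsOpen U) (hKU : K ⊆ U) (hσ : spectrum ℂ A ⊆ K) {f : ℂ → ℂ}
    (hf : DifferentiableOn ℂ f U) (hinj : InjOn f U) (hfK : ∀ z ∈ K, ‖f z‖ ≤ 1) {p : ℂ[X]}
    (hp : AgreesOnSpectrum A f p) (hT : ∀ w ∈ spectrum ℂ (aeval A p), ‖w‖ < 1) {γ γ' : ℝ → ℂ}
    (hγ : ∀ θ, HasDerivAt γ (γ' θ) θ) (hc : Continuous γ') (hγK : ∀ θ, γ θ ∈ K)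
    (hper : γ (2 * π) = γ 0) (h1 : ∀ θ, ‖f (γ θ)‖ = 1) {ρ : ℝ → ℝ} (hρ : Continuous ρ) {s : ℂ}
    (hs : ∀ θ, ρ θ * f (γ θ) = s * (deriv f (γ θ) * γ' θ))
    (hint : ∫ θ in (0 : ℝ)..2 * π, ρ θ = 2 * π) {V : Set ℂ} (hV : IsOpen V) (hKV : K ⊆ V)
    {φ : ℂ → ℂ} (hφ : DifferentiableOn ℂ φ V) {q : ℂ[X]} (hq : AgreesOnSpectrum A φ q) :
    mint (fun θ => φ (γ θ) • ((ρ θ : ℂ) • pk (aeval A p) (f (γ θ)))) =
      (2 * π : ℂ) • aeval A q := by
  set T := aeval A p with hTd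
  have hγc : Continuous γ := continuous_iff_continuousAt.2 fun θ => (hγ θ).continuousAt
  have hwc : Continuous fun θ => f (γ θ) :=
    hf.continuousOn.comp_continuous hγc fun θ => hKU (hγK θ)
  have hφc : Continuous fun θ => φ (γ θ) :=
    hφ.continuousOn.comp_continuous hγc fun θ => hKV (hγK θ)
  have hf' : DifferentiableOn ℂ (deriv f) U := hf.deriv hU
  set R : ℝ → Mat n := fun θ => f (γ θ) • (f (γ θ) • 1 - T)⁻¹ with hR
  set Q : ℝ → Mat n := fun θ => f (γ θ) • (Tᴴ * (1 - f (γ θ) • Tᴴ)⁻¹) with hQ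
  have hRc : Continuous R :=
    hwc.smul (continuous_inv ((hwc.smul continuous_const).sub continuous_const)
      fun θ => det_sub_ne_zero hT (h1 θ).ge)
  have hQc : Continuous Q := hwc.smul (continuous_const.matrix_mul
    (continuous_inv (continuous_const.sub (hwc.smul continuous_const))
      fun θ => det_one_sub_ne_zero hT (h1 θ).le))
  have hN : MDiff (fun z => (1 : Mat n) - f z • Tᴴ) U :=
    (MDiff.const _).sub (MDiff.smul hf (MDiff.const _))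
  set U' := U ∩ (fun z => ((1 : Mat n) - f z • Tᴴ).det) ⁻¹' {0}ᶜ with hU'
  have hU'o : IsOpen U' := hN.det.continuousOn.isOpen_inter_preimage hU isOpen_compl_singleton
  have hKU' : K ⊆ U' := fun z hz => ⟨hKU hz, det_one_sub_ne_zero hT (hfK z hz)⟩
  have hQ0 : ∀ {V : Set ℂ}, IsOpen V → K ⊆ V → ∀ {φ : ℂ → ℂ}, DifferentiableOn ℂ φ V →
      mint (fun θ => φ (γ θ) • ((ρ θ : ℂ) • Q θ)) = 0 := by
    intro V hV hKV φ hφ
    rw [← mint_holo hK hKc (hU'o.inter hV) (subset_inter hKU' hKV)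
      (E := fun z => (s * deriv f z * φ z) • (Tᴴ * (1 - f z • Tᴴ)⁻¹)) ?_ hγ hc hγK hper]
    · congr 1
      ext1 θ
      simp only [hQ, smul_smul, hs]
      congr 1
      ring
    · refine MDiff.smul ?_ ((MDiff.const _).mul (MDiff.inv (hN.mono fun z hz => hz.1.1)
        fun z hz => hz.1.2))
      exact ((hf'.mono fun z hz => hz.1.1).const_mul s).mul (hφ.mono inter_subset_right)
  have hR1 : mint (fun θ => (ρ θ : ℂ) • R θ) = (2 * π : ℂ) • 1 := by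
    have h2 := congrArg Matrix.conjTranspose (hQ0 isOpen_univ (subset_univ _)
      (differentiableOn_const (1 : ℂ)))
    rw [← mint_conjTranspose] at h2
    simp only [one_smul, Matrix.conjTranspose_smul, star_def, conj_ofReal,
      Matrix.conjTranspose_zero] at h2
    have h3 : ∀ θ, (ρ θ : ℂ) • R θ = (ρ θ : ℂ) • 1 + (ρ θ : ℂ) • (Q θ)ᴴ := fun θ => by
      rw [← smul_add]
      exact congrArg _ (pk_facts hT (h1 θ)).2
    simp only [h3]
    rw [mint_add (by fun_prop) (by fun_prop), h2, mint_smul, hint, add_zero]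
    push_cast
    rfl
  obtain ⟨E, hE, hE'⟩ := calc_div A hU (hσ.trans hKU) hf hp
  obtain ⟨F, hF, hF'⟩ := calc_div A hV (hσ.trans hKV) hφ hq
  have hE0 : ∀ z ∈ U, (E z).det ≠ 0 := fun z hz =>
    det_quot_ne_zero hU (hσ.trans hKU) hf hinj hp hE hE' hz
  have hG : MDiff (fun z => (s * deriv f z) • ((E z)⁻¹ * F z)) (U ∩ V) :=
    MDiff.smul ((hf'.mono inter_subset_left).const_mul s)
      (((hE.inv hE0).mono inter_subset_left).mul (hF.mono inter_subset_right))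
  have hG0 := mint_holo hK hKc (hU.inter hV) (subset_inter hKU hKV) hG hγ hc hγK hper
  have hdec : ∀ θ, φ (γ θ) • ((ρ θ : ℂ) • pk T (f (γ θ))) = ((ρ θ : ℂ) • R θ) * aeval A q +
      γ' θ • ((s * deriv f (γ θ)) • ((E (γ θ))⁻¹ * F (γ θ))) + φ (γ θ) • ((ρ θ : ℂ) • Q θ) := by
    intro θ
    have h2 : (f (γ θ) • 1 - T)⁻¹ * (γ θ • 1 - A) * E (γ θ) = 1 := by
      rw [mul_assoc, ← (hE' _ (hKU (hγK θ))).2]
      exact Matrix.nonsing_inv_mul _ (det_sub_ne_zero hT (h1 θ).ge).isUnit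
    have h3 : (E (γ θ))⁻¹ * F (γ θ) = (f (γ θ) • 1 - T)⁻¹ * (φ (γ θ) • 1 - aeval A q) := by
      rw [Matrix.inv_eq_left_inv h2, mul_assoc, ← (hF' _ (hKV (hγK θ))).2]
    have h4 : γ' θ * (s * deriv f (γ θ)) = ρ θ * f (γ θ) := by rw [hs]; ring
    rw [(pk_facts hT (h1 θ)).1, h3, smul_smul (γ' θ), h4]
    simp only [hR, hQ, mul_sub, mul_smul_comm, smul_mul_assoc, mul_one]
    module
  simp only [hdec]
  have hGc : Continuous fun θ => γ' θ • ((s * deriv f (γ θ)) • ((E (γ θ))⁻¹ * F (γ θ))) := by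
    refine hc.smul (continuous_matrix fun i j => ?_)
    exact (hG i j).continuousOn.comp_continuous hγc fun θ => ⟨hKU (hγK θ), hKV (hγK θ)⟩
  rw [mint_add (by fun_prop) (hφc.fun_smul (by fun_prop)), mint_add (by fun_prop) hGc, hG0, hQ0 hV hKV hφ,
    mint_mul (by fun_prop), hR1, add_zero, add_zero, smul_mul_assoc, one_mul]

section norm

variable {ι : Type*} [Fintype ι]

theorem dot_re_le (y x : ι → ℂ) :
    (star y ⬝ᵥ x).re ≤ ‖WithLp.toLp 2 y‖ * ‖WithLp.toLp 2 x‖ := by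
  have := re_inner_le_norm (𝕜 := ℂ) (WithLp.toLp 2 y) (WithLp.toLp 2 x)
  rwa [EuclideanSpace.inner_toLp_toLp, dotProduct_comm] at this

theorem dot_self_re (x : ι → ℂ) : (star x ⬝ᵥ x).re = ‖WithLp.toLp 2 x‖ ^ 2 := by
  rw [@norm_sq_eq_re_inner ℂ, EuclideanSpace.inner_toLp_toLp, dotProduct_comm]
  rfl

theorem dot_conj_mul (D W : Matrix ι ι ℂ) (y x : ι → ℂ) :
    star y ⬝ᵥ (Dᴴ * W) *ᵥ x = star (D *ᵥ y) ⬝ᵥ W *ᵥ x := by
  rw [← Matrix.mulVec_mulVec, Matrix.dotProduct_mulVec, Matrix.star_mulVec]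

theorem quad_re (D : Matrix ι ι ℂ) (x : ι → ℂ) :
    (star x ⬝ᵥ (Dᴴ * D) *ᵥ x).re = ‖WithLp.toLp 2 (D *ᵥ x)‖ ^ 2 := by
  rw [dot_conj_mul, dot_self_re]

variable [DecidableEq ι]

theorem one_kron_le {v : Matrix ι ι ℂ} {M : ℝ} (hM0 : 0 ≤ M)
    (hM : ‖Matrix.toEuclideanCLM (n := ι) (𝕜 := ℂ) v‖ ≤ M) (u : Fin n × ι → ℂ) :
    ‖WithLp.toLp 2 (((1 : Mat n) ⊗ₖ v) *ᵥ u)‖ ≤ M * ‖WithLp.toLp 2 u‖ := by
  refine le_of_sq_le_sq ?_ (by positivity)
  rw [mul_pow, EuclideanSpace.norm_sq_eq, EuclideanSpace.norm_sq_eq, Fintype.sum_prod_type,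
    Fintype.sum_prod_type, Finset.mul_sum]
  refine Finset.sum_le_sum fun a _ => le_trans (le_of_eq ?_) (sum_mulVec_le hM fun d => u (a, d))
  refine Finset.sum_congr rfl fun c _ => ?_
  simp [Matrix.mulVec, dotProduct, Fintype.sum_prod_type, Matrix.one_apply]

theorem kron_bound {Λ : Mat n} (hΛ : Λ.PosSemidef) {v : Matrix ι ι ℂ} {M : ℝ} (hM0 : 0 ≤ M)
    (hM : ‖Matrix.toEuclideanCLM (n := ι) (𝕜 := ℂ) v‖ ≤ M) (y x : Fin n × ι → ℂ) :
    (star y ⬝ᵥ (Λ ⊗ₖ v) *ᵥ x).re ≤ M / 2 * ((star x ⬝ᵥ (Λ ⊗ₖ (1 : Matrix ι ι ℂ)) *ᵥ x).re +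
      (star y ⬝ᵥ (Λ ⊗ₖ (1 : Matrix ι ι ℂ)) *ᵥ y).re) := by
  obtain ⟨C, rfl⟩ := exists_sqrt hΛ
  set D := C ⊗ₖ (1 : Matrix ι ι ℂ) with hD
  have h1 : (Cᴴ * C) ⊗ₖ (1 : Matrix ι ι ℂ) = Dᴴ * D := by
    rw [hD, Matrix.conjTranspose_kronecker, ← Matrix.mul_kronecker_mul]; simp
  have h2 : (Cᴴ * C) ⊗ₖ v = Dᴴ * (((1 : Mat n) ⊗ₖ v) * D) := by
    rw [hD, Matrix.conjTranspose_kronecker, ← Matrix.mul_kronecker_mul,
      ← Matrix.mul_kronecker_mul]; simp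
  rw [h1, h2, quad_re, quad_re, dot_conj_mul, ← Matrix.mulVec_mulVec]
  refine (dot_re_le _ _).trans ((mul_le_mul_of_nonneg_left (one_kron_le hM0 hM _)
    (norm_nonneg _)).trans ?_)
  nlinarith [mul_nonneg hM0 (sq_nonneg (‖WithLp.toLp 2 (D *ᵥ x)‖ - ‖WithLp.toLp 2 (D *ᵥ y)‖))]

theorem mint_norm_le {Λ : ℝ → Mat n} (hΛc : Continuous Λ) (hΛ : ∀ θ, (Λ θ).PosSemidef)
    (hΛ1 : mint Λ = (2 * π : ℂ) • 1) {v : ℝ → Matrix ι ι ℂ} (hvc : Continuous v) {M : ℝ}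
    (hM : ∀ θ, ‖Matrix.toEuclideanCLM (n := ι) (𝕜 := ℂ) (v θ)‖ ≤ M)
    {B : Matrix (Fin n × ι) (Fin n × ι) ℂ} (hB : mint (fun θ => Λ θ ⊗ₖ v θ) = (2 * π : ℂ) • B)
    (x : Fin n × ι → ℂ) : ‖WithLp.toLp 2 (B *ᵥ x)‖ ≤ M * ‖WithLp.toLp 2 x‖ := by
  have hM0 : 0 ≤ M := (norm_nonneg _).trans (hM 0)
  have hk : ∀ {v : ℝ → Matrix ι ι ℂ}, Continuous v → Continuous fun θ => Λ θ ⊗ₖ v θ :=
    fun hv => continuous_matrix fun i j => (hΛc.matrix_elem _ _).mul (hv.matrix_elem _ _)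
  have h1 : mint (fun θ => Λ θ ⊗ₖ (1 : Matrix ι ι ℂ)) = (2 * π : ℂ) • 1 := by
    rw [← Matrix.one_kronecker_one, ← Matrix.smul_kronecker, ← hΛ1]
    ext i j
    simp only [mint, Matrix.of_apply, Matrix.kroneckerMap_apply,
      intervalIntegral.integral_mul_const]
  have h2 : ∀ z : Fin n × ι → ℂ, ∫ θ in (0 : ℝ)..2 * π,
      (star z ⬝ᵥ (Λ θ ⊗ₖ (1 : Matrix ι ι ℂ)) *ᵥ z).re = 2 * π * ‖WithLp.toLp 2 z‖ ^ 2 := by
    intro z
    rw [← mint_dot (hk continuous_const), h1, ← dot_self_re, Matrix.smul_mulVec,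
      Matrix.one_mulVec, dotProduct_smul, smul_eq_mul]
    simp
  have key : ∀ y, (star y ⬝ᵥ B *ᵥ x).re ≤
      M / 2 * (‖WithLp.toLp 2 x‖ ^ 2 + ‖WithLp.toLp 2 y‖ ^ 2) := by
    intro y
    have hc1 := hk hvc
    have hc2 := hk (continuous_const (y := (1 : Matrix ι ι ℂ)))
    have h3 := intervalIntegral.integral_mono_on (μ := MeasureTheory.volume) Real.two_pi_pos.le
      (Continuous.intervalIntegrable (by fun_prop) _ _)
      (Continuous.intervalIntegrable (by fun_prop) _ _)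
      fun θ _ => kron_bound (hΛ θ) hM0 (hM θ) y x
    rw [← mint_dot hc1, hB, intervalIntegral.integral_const_mul, intervalIntegral.integral_add
      (Continuous.intervalIntegrable (by fun_prop) _ _)
      (Continuous.intervalIntegrable (by fun_prop) _ _), h2, h2, Matrix.smul_mulVec,
      dotProduct_smul, smul_eq_mul] at h3
    have h4 : (2 * π : ℂ) = ((2 * π : ℝ) : ℂ) := by push_cast; rfl
    rw [h4, re_ofReal_mul] at h3
    refine le_of_mul_le_mul_left (h3.trans_eq ?_) Real.two_pi_pos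
    ring
  set a := ‖WithLp.toLp 2 x‖ with ha
  set b := ‖WithLp.toLp 2 (B *ᵥ x)‖ with hb
  have h5 : ∀ t : ℝ, t * b ^ 2 ≤ M / 2 * (a ^ 2 + t ^ 2 * b ^ 2) := by
    intro t
    have := key (t • (B *ᵥ x))
    rwa [star_smul, star_trivial, smul_dotProduct, smul_re, dot_self_re, WithLp.toLp_smul,
      norm_smul, mul_pow, Real.norm_eq_abs, sq_abs, smul_eq_mul] at this
  have ha0 : 0 ≤ a := norm_nonneg _
  have hb0 : 0 ≤ b := norm_nonneg _
  rcases hM0.eq_or_lt with h | h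
  · have := h5 1
    rw [← h] at this ⊢
    nlinarith
  · have h6 := mul_le_mul_of_nonneg_left (h5 M⁻¹) h.le
    refine le_of_sq_le_sq ?_ (by positivity)
    field_simp at h6
    nlinarith

theorem kron_similar {S H : Mat n} (hS : S.IsHermitian) (hSH : S * S = H) {κ : ℝ} (hκ : 0 ≤ κ)
    (h1 : (H - 1).PosSemidef) (h2 : ((κ : ℂ) • (1 : Mat n) - H).PosSemidef)
    (x : Fin n × ι → ℂ) :
    ‖WithLp.toLp 2 x‖ ≤ ‖WithLp.toLp 2 ((S ⊗ₖ (1 : Matrix ι ι ℂ)) *ᵥ x)‖ ∧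
      ‖WithLp.toLp 2 ((S ⊗ₖ (1 : Matrix ι ι ℂ)) *ᵥ x)‖ ≤ √κ * ‖WithLp.toLp 2 x‖ := by
  have h3 : (S ⊗ₖ (1 : Matrix ι ι ℂ))ᴴ * (S ⊗ₖ (1 : Matrix ι ι ℂ)) = H ⊗ₖ (1 : Matrix ι ι ℂ) := by
    rw [Matrix.conjTranspose_kronecker, ← Matrix.mul_kronecker_mul, hS.eq, hSH]; simp
  have h4 := quad_re (S ⊗ₖ (1 : Matrix ι ι ℂ)) x
  have h5 := (h1.kronecker (Matrix.PosSemidef.one (n := ι))).re_dotProduct_nonneg x
  have h6 := (h2.kronecker (Matrix.PosSemidef.one (n := ι))).re_dotProduct_nonneg x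
  have h7 : ∀ P Q : Mat n, (P - Q) ⊗ₖ (1 : Matrix ι ι ℂ) =
      P ⊗ₖ (1 : Matrix ι ι ℂ) - Q ⊗ₖ (1 : Matrix ι ι ℂ) := fun P Q => by
    ext i j; simp [sub_mul]
  rw [h3] at h4
  simp only [h7, Matrix.smul_kronecker, Matrix.one_kronecker_one, Matrix.sub_mulVec,
    Matrix.smul_mulVec, Matrix.one_mulVec, dotProduct_sub, dotProduct_smul, RCLike.re_to_complex,
    sub_re, smul_eq_mul, re_ofReal_mul, h4, dot_self_re] at h5 h6
  refine ⟨le_of_sq_le_sq (by linarith) (norm_nonneg _), le_of_sq_le_sq ?_ (by positivity)⟩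
  rw [mul_pow, Real.sq_sqrt hκ]
  linarith

end norm

theorem aeval_similar {S A : Mat n} (hS : IsUnit S.det) (q : ℂ[X]) :
    aeval (S * A * S⁻¹) q * S = S * aeval A q := by
  induction q using Polynomial.induction_on with
  | C a => simp [Algebra.algebraMap_eq_smul_one]
  | add p q hp hq => simp [add_mul, mul_add, hp, hq]
  | monomial k a h =>
    rw [pow_succ, ← mul_assoc, map_mul, map_mul (aeval A), aeval_X, aeval_X, mul_assoc,
      Matrix.nonsing_inv_mul_cancel_right _ _ hS, ← mul_assoc, h, mul_assoc]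

theorem spectrum_similar {S A : Mat n} (hS : IsUnit S.det) :
    spectrum ℂ (S * A * S⁻¹) = spectrum ℂ A := by
  obtain ⟨u, rfl⟩ := (Matrix.isUnit_iff_isUnit_det S).2 hS
  rw [← Matrix.coe_units_inv, spectrum.units_conjugate]

end Crest.Agent.R132
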